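import Vale.Agent.P163.Defs

/-!
Conditioning on the outside of a finite set, and the shell inequality from finite rotations.
-/

open MeasureTheory Finset Real
open scoped RealInnerProductSpace Pointwise

namespace Vale.Agent.P163

variable {n : ℕ}

/-- A linear isometry acting on the sphere. -/
noncomputable def sphMap (R : Vec n ≃ₗᵢ[ℝ] Vec n) (x : Sph n) : Sph n :=
  ⟨R x, by simp⟩

lemma measurable_sphMap (R : Vec n ≃ₗᵢ[ℝ] Vec n) : Measurable (sphMap R) :=
  (R.continuous.measurable.comp measurable_subtype_coe).subtype_mk

lemma omega_isProbability [NeZero n] : IsProbabilityMeasure (omega n) := by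
  have h0 : (volume : Measure (Vec n)).toSphere Set.univ ≠ 0 := by
    rw [Measure.measure_univ_ne_zero]
    exact Measure.toSphere_ne_zero _
  exact ⟨by rw [omega, Measure.smul_apply, smul_eq_mul,
    ENNReal.inv_mul_cancel h0 (measure_ne_top _ _)]⟩

lemma omega_invariant (R : Vec n ≃ₗᵢ[ℝ] Vec n) :
    MeasurePreserving (sphMap R) (omega n) (omega n) := by
  refine ⟨measurable_sphMap R, ?_⟩
  rw [omega, Measure.map_smul]
  congr 1
  ext s hs
  rw [Measure.map_apply (measurable_sphMap R) hs, Measure.toSphere_apply' _ hs,
    Measure.toSphere_apply' _ (measurable_sphMap R hs)]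
  congr 1
  have : Set.Ioo (0 : ℝ) 1 • ((↑) '' (sphMap R ⁻¹' s) : Set (Vec n))
      = R ⁻¹' (Set.Ioo (0 : ℝ) 1 • ((↑) '' s : Set (Vec n))) := by
    ext v
    simp only [Set.mem_smul, Set.mem_image, Set.mem_preimage]
    constructor
    · rintro ⟨c, hc, _, ⟨x, hx, rfl⟩, rfl⟩
      exact ⟨c, hc, _, ⟨_, hx, rfl⟩, by simp [sphMap]⟩
    · rintro ⟨c, hc, _, ⟨x, hx, rfl⟩, h⟩
      refine ⟨c, hc, _, ⟨sphMap R.symm x, ?_, rfl⟩, ?_⟩
      · convert hx using 1
        ext1
        simp [sphMap]
      · change c • R.symm (x : Vec n) = v
        rw [← map_smul, h, R.symm_apply_apply]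
  rw [this, R.measurePreserving.measure_preimage_emb R.toHomeomorph.measurableEmbedding]

variable {V : Type*} [Fintype V]

lemma freeMeasure_isProbability [NeZero n] : IsProbabilityMeasure (freeMeasure n V) := by
  haveI := omega_isProbability (n := n)
  unfold freeMeasure
  infer_instance

/-- Replace the spins in `S` by those of `ζ`. -/
noncomputable def merge (S : Finset V) (η ζ : V → Sph n) : V → Sph n :=
  open scoped Classical in fun x => if x ∈ S then ζ x else η x

lemma measurable_merge (S : Finset V) :
    Measurable fun p : (V → Sph n) × (V → Sph n) => merge S p.1 p.2 := by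
  classical
  refine measurable_pi_lambda _ fun x => ?_
  simp only [merge]
  split
  · exact (measurable_pi_apply x).comp measurable_snd
  · exact (measurable_pi_apply x).comp measurable_fst

lemma merge_measurePreserving [NeZero n] (S : Finset V) :
    MeasurePreserving (fun p : (V → Sph n) × (V → Sph n) => merge S p.1 p.2)
      ((freeMeasure n V).prod (freeMeasure n V)) (freeMeasure n V) := by
  classical
  haveI := omega_isProbability (n := n)
  haveI := freeMeasure_isProbability (n := n) (V := V)
  refine ⟨measurable_merge S, (Measure.pi_eq fun s hs => ?_).symm⟩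
  rw [Measure.map_apply (measurable_merge S) (.univ_pi hs)]
  have : (fun p : (V → Sph n) × (V → Sph n) => merge S p.1 p.2) ⁻¹' Set.univ.pi s
      = (Set.univ.pi fun x => if x ∈ S then Set.univ else s x) ×ˢ
        (Set.univ.pi fun x => if x ∈ S then s x else Set.univ) := by
    ext ⟨η, ζ⟩
    simp only [Set.mem_preimage, Set.mem_univ_pi, Set.mem_prod, merge, ← forall_and]
    refine forall_congr' fun x => ?_
    by_cases hx : x ∈ S <;> simp [hx]
  rw [this, Measure.prod_prod, freeMeasure, Measure.pi_pi, Measure.pi_pi, ← prod_mul_distrib]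
  refine prod_congr rfl fun x _ => ?_
  by_cases hx : x ∈ S <;> simp [hx]

/-- Rotate the spins in `S`. -/
noncomputable def rot (S : Finset V) (R : Vec n ≃ₗᵢ[ℝ] Vec n) (σ : V → Sph n) : V → Sph n :=
  open scoped Classical in fun x => if x ∈ S then sphMap R (σ x) else σ x

lemma rot_measurePreserving [NeZero n] (S : Finset V) (R : Vec n ≃ₗᵢ[ℝ] Vec n) :
    MeasurePreserving (rot S R) (freeMeasure n V) (freeMeasure n V) := by
  classical
  haveI := omega_isProbability (n := n)
  have h : ∀ x : V, MeasurePreserving (fun v => if x ∈ S then sphMap R v else v) (omega n) (omega n) :=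
    fun x => by
      by_cases hx : x ∈ S
      · simp only [if_pos hx]; exact omega_invariant R
      · simp only [if_neg hx]; exact MeasurePreserving.id _
  exact measurePreserving_pi _ _ h

variable (β : ℝ) (B : Finset (V × V))

/-- The pair interaction. -/
noncomputable def energy (σ : V → Sph n) : ℝ := ∑ b ∈ B, ⟪(σ b.1 : Vec n), (σ b.2 : Vec n)⟫

lemma weight_eq (σ : V → Sph n) : weight β B σ = Real.exp (β * energy B σ) := rfl

lemma norm_spin (v : Sph n) : ‖(v : Vec n)‖ = 1 := by simp

lemma abs_energy_le (σ : V → Sph n) : |energy B σ| ≤ B.card := by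
  refine (abs_sum_le_sum_abs _ _).trans ((sum_le_card_nsmul _ _ 1 fun b _ => ?_).trans (by simp))
  exact (abs_real_inner_le_norm _ _).trans (by simp [norm_spin])

lemma weight_pos (σ : V → Sph n) : 0 < weight β B σ := Real.exp_pos _

lemma weight_le (σ : V → Sph n) : weight β B σ ≤ Real.exp (|β| * B.card) := by
  refine Real.exp_le_exp.2 ((le_abs_self _).trans ?_)
  rw [abs_mul]
  exact mul_le_mul_of_nonneg_left (abs_energy_le B σ) (abs_nonneg _)

lemma le_weight (σ : V → Sph n) : Real.exp (-(|β| * B.card)) ≤ weight β B σ := by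
  refine Real.exp_le_exp.2 ((neg_le_neg ?_).trans (neg_abs_le _))
  rw [abs_mul]
  exact mul_le_mul_of_nonneg_left (abs_energy_le B σ) (abs_nonneg _)

lemma measurable_spin (x : V) : Measurable fun σ : V → Sph n => (σ x : Vec n) :=
  measurable_subtype_coe.comp (measurable_pi_apply x)

lemma measurable_energy : Measurable (energy B : (V → Sph n) → ℝ) :=
  Finset.measurable_sum _ fun b _ => (measurable_spin b.1).inner (measurable_spin b.2)

lemma measurable_weight : Measurable (weight β B : (V → Sph n) → ℝ) :=
  Real.measurable_exp.comp (measurable_const.mul (measurable_energy B))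

/-- A bounded measurable function. -/
def Nice {α F : Type*} [MeasurableSpace α] [NormedAddCommGroup F] [MeasurableSpace F] (g : α → F) :
    Prop :=
  Measurable g ∧ ∃ C, ∀ a, ‖g a‖ ≤ C

variable {F : Type*} [NormedAddCommGroup F] [NormedSpace ℝ F] [FiniteDimensional ℝ F]
  [MeasurableSpace F] [BorelSpace F]

omit [NormedSpace ℝ F] [FiniteDimensional ℝ F] in
lemma Nice.comp {α γ : Type*} [MeasurableSpace α] [MeasurableSpace γ] {g : α → F} (hg : Nice g)
    {k : γ → α} (hk : Measurable k) : Nice (g ∘ k) :=
  ⟨hg.1.comp hk, hg.2.imp fun _ h a => h _⟩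

lemma Nice.wsmul {g : (V → Sph n) → F} (hg : Nice g) : Nice fun σ => weight β B σ • g σ := by
  obtain ⟨C, hC⟩ := hg.2
  refine ⟨(measurable_weight β B).smul hg.1, Real.exp (|β| * B.card) * C, fun σ => ?_⟩
  rw [norm_smul, Real.norm_eq_abs, abs_of_pos (weight_pos β B σ)]
  exact mul_le_mul (weight_le β B σ) (hC σ) (norm_nonneg _) (Real.exp_pos _).le

omit [BorelSpace F] in
lemma Nice.integrable [BorelSpace F] {α : Type*} [MeasurableSpace α] {μ : Measure α}
    [IsFiniteMeasure μ] {g : α → F} (hg : Nice g) : Integrable g μ := by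
  obtain ⟨C, hC⟩ := hg.2
  exact Integrable.of_bound hg.1.aestronglyMeasurable C (Filter.Eventually.of_forall hC)

/-- The partition function given the outside of `S`. -/
noncomputable def part (S : Finset V) (η : V → Sph n) : ℝ :=
  ∫ ζ, weight β B (merge S η ζ) ∂freeMeasure n V

/-- The expectation given the outside of `S`. -/
noncomputable def cond (S : Finset V) (g : (V → Sph n) → F) (η : V → Sph n) : F :=
  (part β B S η)⁻¹ • ∫ ζ, weight β B (merge S η ζ) • g (merge S η ζ) ∂freeMeasure n V

variable [NeZero n]

lemma part_pos (S : Finset V) (η : V → Sph n) : 0 < part β B S η := by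
  haveI := freeMeasure_isProbability (n := n) (V := V)
  refine (Real.exp_pos (-(|β| * B.card))).trans_le ?_
  have hnice : Nice fun ζ => weight β B (merge S η ζ) := by
    refine ⟨(measurable_weight β B).comp ((measurable_merge S).comp (measurable_const.prodMk
      measurable_id)), Real.exp (|β| * B.card), fun ζ => ?_⟩
    rw [Real.norm_eq_abs, abs_of_pos (weight_pos β B _)]
    exact weight_le β B _
  calc Real.exp (-(|β| * B.card)) = ∫ _ζ : V → Sph n, Real.exp (-(|β| * B.card)) ∂freeMeasure n V := by simp
    _ ≤ _ := integral_mono (integrable_const _) hnice.integrable fun ζ => le_weight β B _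

lemma measurable_slice (S : Finset V) (η : V → Sph n) : Measurable fun ζ => merge S η ζ :=
  (measurable_merge S).comp (measurable_const.prodMk measurable_id)

lemma cond_smul (S : Finset V) (g : (V → Sph n) → F) (η : V → Sph n) :
    part β B S η • cond β B S g η
      = ∫ ζ, weight β B (merge S η ζ) • g (merge S η ζ) ∂freeMeasure n V := by
  rw [cond, smul_smul, mul_inv_cancel₀ (part_pos β B S η).ne', one_smul]

lemma measurable_cond (S : Finset V) {g : (V → Sph n) → F} (hg : Nice g) :
    Measurable (cond β B S g) := by
  haveI := freeMeasure_isProbability (n := n) (V := V)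
  refine Measurable.smul ?_ ?_
  · exact (((measurable_weight β B).comp (measurable_merge S)).stronglyMeasurable.integral_prod_right'
      (f := fun p => weight β B (merge S p.1 p.2))).measurable.inv
  · exact (((hg.wsmul β B).1.comp (measurable_merge S)).stronglyMeasurable.integral_prod_right'
      (f := fun p => weight β B (merge S p.1 p.2) • g (merge S p.1 p.2))).measurable

lemma norm_cond_le (S : Finset V) {g : (V → Sph n) → F} {C : ℝ} (hgm : Measurable g)
    (hC : ∀ σ, ‖g σ‖ ≤ C) (η : V → Sph n) : ‖cond β B S g η‖ ≤ C := by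
  haveI := freeMeasure_isProbability (n := n) (V := V)
  rw [cond, norm_smul, Real.norm_eq_abs, abs_inv, abs_of_pos (part_pos β B S η),
    inv_mul_le_iff₀ (part_pos β B S η), part, ← integral_mul_const]
  refine norm_integral_le_of_norm_le ?_ (Filter.Eventually.of_forall fun ζ => ?_)
  · have : Nice fun σ : V → Sph n => weight β B σ * C :=
      ⟨(measurable_weight β B).mul_const C, Real.exp (|β| * B.card) * |C|, fun σ => by
        rw [norm_mul, Real.norm_eq_abs, Real.norm_eq_abs, abs_of_pos (weight_pos β B σ)]
        exact mul_le_mul_of_nonneg_right (weight_le β B σ) (abs_nonneg _)⟩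
    exact (this.comp (measurable_slice S η)).integrable
  · rw [norm_smul, Real.norm_eq_abs, abs_of_pos (weight_pos β B _)]
    exact mul_le_mul_of_nonneg_left (hC _) (weight_pos β B _).le

lemma Nice.cond (S : Finset V) {g : (V → Sph n) → F} (hg : Nice g) :
    Nice (P163.cond β B S g) :=
  ⟨measurable_cond β B S hg, hg.2.imp fun _ h => norm_cond_le β B S hg.1 h⟩

omit [NeZero n] in
/-- The weighted integral over all configurations. -/
noncomputable def total (g : (V → Sph n) → F) : F :=
  ∫ σ, weight β B σ • g σ ∂freeMeasure n V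

lemma total_split (S : Finset V) {g : (V → Sph n) → F} (hg : Nice g) :
    total β B g = ∫ η, part β B S η • cond β B S g η ∂freeMeasure n V := by
  haveI := freeMeasure_isProbability (n := n) (V := V)
  simp only [cond_smul]
  have hi : Integrable (fun p : (V → Sph n) × (V → Sph n) =>
      weight β B (merge S p.1 p.2) • g (merge S p.1 p.2))
      ((freeMeasure n V).prod (freeMeasure n V)) :=
    ((hg.wsmul β B).comp (measurable_merge S)).integrable
  rw [← integral_prod (fun p : (V → Sph n) × (V → Sph n) =>
      weight β B (merge S p.1 p.2) • g (merge S p.1 p.2)) hi]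
  conv_lhs => rw [total, ← (merge_measurePreserving (n := n) S).map_eq]
  rw [integral_map (measurable_merge S).aemeasurable (hg.wsmul β B).1.aestronglyMeasurable]

lemma part_congr (S : Finset V) {η η' : V → Sph n} (h : ∀ x, x ∉ S → η x = η' x) (ζ : V → Sph n) :
    merge S η ζ = merge S η' ζ := by
  classical
  funext x
  simp only [merge]
  split
  · rfl
  · exact h x ‹_›

lemma merge_merge {S S' : Finset V} (h : S ⊆ S') (η ζ ξ : V → Sph n) :
    merge S' η (merge S ζ ξ) = merge S (merge S' η ζ) ξ := by
  classical
  funext x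
  simp only [merge]
  by_cases h1 : x ∈ S
  · simp [h1, h h1]
  · simp [h1]

/-- The tower property. -/
lemma cond_cond {S S' : Finset V} (h : S ⊆ S') {g : (V → Sph n) → F} (hg : Nice g) :
    cond β B S' (cond β B S g) = cond β B S' g := by
  haveI := freeMeasure_isProbability (n := n) (V := V)
  funext η
  simp only [cond]
  congr 1
  have e : ∀ {k : (V → Sph n) → F}, Nice k →
      ∫ ζ, k (merge S' η ζ) ∂freeMeasure n V
        = ∫ ζ, ∫ ξ, k (merge S (merge S' η ζ) ξ) ∂freeMeasure n V ∂freeMeasure n V := by
    intro k hk
    simp only [← merge_merge h]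
    have hi : Integrable (fun p : (V → Sph n) × (V → Sph n) => k (merge S' η (merge S p.1 p.2)))
        ((freeMeasure n V).prod (freeMeasure n V)) :=
      (hk.comp ((measurable_slice S' η).comp (measurable_merge S))).integrable
    have hm' : AEStronglyMeasurable (fun ζ : V → Sph n => k (merge S' η ζ))
        ((((freeMeasure n V).prod (freeMeasure n V))).map fun p => merge S p.1 p.2) :=
      (hk.1.comp (measurable_slice S' η)).aestronglyMeasurable
    rw [← integral_prod (fun p : (V → Sph n) × (V → Sph n) => k (merge S' η (merge S p.1 p.2))) hi]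
    conv_lhs => rw [← (merge_measurePreserving (n := n) S).map_eq]
    rw [integral_map (measurable_merge S).aemeasurable hm']
  change (∫ ζ, weight β B (merge S' η ζ) • cond β B S g (merge S' η ζ) ∂freeMeasure n V) = _
  rw [e ((hg.cond β B S).wsmul β B), e (hg.wsmul β B)]
  refine integral_congr_ae (Filter.Eventually.of_forall fun ζ => ?_)
  dsimp only
  set σ := merge S' η ζ with hσ
  have hm : ∀ ξ, merge S (merge S σ ξ) = merge S σ := fun ξ => by
    funext ξ'
    refine part_congr S (fun x hx => ?_) ξ'
    simp [merge, hx]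
  have hc : ∀ ξ, cond β B S g (merge S σ ξ) = cond β B S g σ := fun ξ => by
    simp only [cond, part, hm ξ]
  simp only [hc]
  rw [integral_smul_const]
  exact cond_smul β B S g σ

/-- Transport of a conditional expectation by a symmetry. -/
lemma cond_transport (S : Finset V) {g : (V → Sph n) → F} (hg : Nice g) (L : F →L[ℝ] F)
    {τ : (V → Sph n) → (V → Sph n)} (hτ : MeasurePreserving τ (freeMeasure n V) (freeMeasure n V))
    {η η' : V → Sph n} {κ : ℝ}
    (hH : ∀ ζ, energy B (merge S η' (τ ζ)) = energy B (merge S η ζ) + κ)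
    (hL : ∀ ζ, g (merge S η' (τ ζ)) = L (g (merge S η ζ))) :
    cond β B S g η' = L (cond β B S g η) := by
  haveI := freeMeasure_isProbability (n := n) (V := V)
  have hw : ∀ ζ, weight β B (merge S η' (τ ζ)) = Real.exp (β * κ) * weight β B (merge S η ζ) := by
    intro ζ
    rw [weight_eq, weight_eq, hH, mul_add, Real.exp_add, mul_comm]
  have hp : part β B S η' = Real.exp (β * κ) * part β B S η := by
    have hm' : AEStronglyMeasurable (fun ζ => weight β B (merge S η' ζ))
        ((freeMeasure n V).map τ) :=
      ((measurable_weight β B).comp (measurable_slice S η')).aestronglyMeasurable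
    rw [part, ← hτ.map_eq, integral_map hτ.aemeasurable hm']
    simp only [hw, part, hτ.map_eq]
    rw [integral_const_mul]
  simp only [cond]
  rw [hp]
  conv_lhs => rw [← hτ.map_eq]
  have hm' : AEStronglyMeasurable (fun ζ => weight β B (merge S η' ζ) • g (merge S η' ζ))
      ((freeMeasure n V).map τ) :=
    (((hg.wsmul β B).1.comp (measurable_slice S η')).aestronglyMeasurable)
  rw [integral_map hτ.aemeasurable hm']
  simp only [hw, hL, mul_smul]
  have hint : Integrable (fun ζ => weight β B (merge S η ζ) • g (merge S η ζ)) (freeMeasure n V) :=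
    ((hg.wsmul β B).comp (measurable_slice S η)).integrable
  rw [integral_smul, map_smul, mul_inv, ← L.integral_comp_comm hint]
  simp only [map_smul]
  rw [smul_smul]
  congr 1
  field_simp

end Vale.Agent.P163
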