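import Vale.Agent.P163.Shell

/-!
Iterating the shell inequality around both end points.
-/

open MeasureTheory Finset Real
open scoped RealInnerProductSpace

namespace Vale.Agent.P163

variable {n : ℕ} {V : Type*} [Fintype V] [DecidableEq V] [NeZero n] (β : ℝ) (B : Finset (V × V))

omit [DecidableEq V] in
lemma total_cond {F : Type*} [NormedAddCommGroup F] [NormedSpace ℝ F] [FiniteDimensional ℝ F]
    [MeasurableSpace F] [BorelSpace F] (S : Finset V) {g : (V → Sph n) → F} (hg : Nice g) :
    total β B (cond β B S g) = total β B g := by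
  rw [total_split β B S (hg.cond β B S), total_split β B S hg]
  simp only [cond_cond β B (Finset.Subset.refl S) hg]

omit [DecidableEq V] [NeZero n] in
lemma nice_spin (x : V) : Nice fun σ : V → Sph n => (σ x : Vec n) :=
  ⟨measurable_spin x, 1, fun σ => (norm_spin _).le⟩

omit [DecidableEq V] [NeZero n] in
lemma nice_inner₂ {g h : (V → Sph n) → Vec n} (hg : Nice g) (hh : Nice h) :
    Nice fun σ : V → Sph n => ⟪g σ, h σ⟫ := by
  obtain ⟨C, hC⟩ := hg.2
  obtain ⟨D, hD⟩ := hh.2
  exact ⟨hg.1.inner hh.1, C * D, fun σ => (abs_real_inner_le_norm _ _).trans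
    (mul_le_mul (hC σ) (hD σ) (norm_nonneg _) ((norm_nonneg _).trans (hC σ)))⟩

omit [DecidableEq V] in
lemma total_inner_cond (S : Finset V) {g h : (V → Sph n) → Vec n} (hg : Nice g) (hh : Nice h)
    (hind : ∀ η ζ, h (merge S η ζ) = h η) :
    total β B (fun σ : V → Sph n => ⟪g σ, h σ⟫) = total β B (fun σ : V → Sph n => ⟪cond β B S g σ, h σ⟫) := by
  haveI := freeMeasure_isProbability (n := n) (V := V)
  have key : ∀ k : (V → Sph n) → Vec n, Nice k → ∀ η,
      cond β B S (fun σ : V → Sph n => ⟪k σ, h σ⟫) η = ⟪cond β B S k η, h η⟫ := by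
    intro k hk η
    have hi : Integrable (fun ζ => weight β B (merge S η ζ) • k (merge S η ζ)) (freeMeasure n V) :=
      ((hk.wsmul β B).comp (measurable_slice S η)).integrable
    rw [cond, cond, real_inner_smul_left, real_inner_comm, ← integral_inner hi, smul_eq_mul]
    congr 1
    refine integral_congr_ae (Filter.Eventually.of_forall fun ζ => ?_)
    simp only [real_inner_smul_right, hind, smul_eq_mul, real_inner_comm (h η)]
  rw [total_split β B S (nice_inner₂ hg hh), total_split β B S (nice_inner₂ (hg.cond β B S) hh)]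
  refine integral_congr_ae (Filter.Eventually.of_forall fun η => ?_)
  simp only [key g hg, key _ (hg.cond β B S), cond_cond β B (Finset.Subset.refl S) hg]

/-- The sets around an end point. -/
def level (d : V → ℕ) (r : ℕ) : Finset V := univ.filter fun v => d v ≤ r

/-- The iterated conditional spin. -/
noncomputable def phi (n : ℕ) (β : ℝ) (B : Finset (V × V)) (d : V → ℕ) (x : V) :
    ℕ → (V → Sph n) → Vec n
  | 0 => fun σ => (σ x : Vec n)
  | r + 1 => cond β B (level d (r + 1)) (phi n β B d x r)

variable (d : V → ℕ) (x : V)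

lemma phi_nice : ∀ r, Nice (phi n β B d x r)
  | 0 => nice_spin x
  | r + 1 => (phi_nice r).cond β B _

lemma phi_eq : ∀ r, phi n β B d x (r + 1) = cond β B (level d (r + 1)) (fun σ => (σ x : Vec n))
  | 0 => rfl
  | r + 1 => by
    rw [phi, phi_eq r, cond_cond β B (by intro v; simp [level]; omega) (nice_spin x)]

/-- The decay rate. -/
noncomputable def rate (n : ℕ) (β : ℝ) : ℝ := ((n : ℝ) - 1) / (8 * β)

lemma rate_step {c : ℝ} (hc : 0 < c) (r : ℕ) :
    ((r : ℝ) + 2) / ((r : ℝ) + 2 + c) ≤ (((r : ℝ) + 2 + c) / ((r : ℝ) + 3 + c)) ^ c := by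
  have h1 : 0 < ((r : ℝ) + 2) / ((r : ℝ) + 2 + c) := by positivity
  have h2 : 0 < ((r : ℝ) + 2 + c) / ((r : ℝ) + 3 + c) := by positivity
  rw [← Real.exp_log h1, Real.rpow_def_of_pos h2, Real.exp_le_exp]
  have a := Real.log_le_sub_one_of_pos h1
  have b := Real.one_sub_inv_le_log_of_pos h2
  have e1 : ((r : ℝ) + 2) / ((r : ℝ) + 2 + c) - 1 = -(c / ((r : ℝ) + 2 + c)) := by field_simp; ring
  have e2 : 1 - (((r : ℝ) + 2 + c) / ((r : ℝ) + 3 + c))⁻¹ = -(1 / ((r : ℝ) + 2 + c)) := by
    field_simp; ring
  rw [e1] at a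
  rw [e2] at b
  have := mul_le_mul_of_nonneg_left b hc.le
  have e3 : c * -(1 / ((r : ℝ) + 2 + c)) = -(c / ((r : ℝ) + 2 + c)) := by ring
  linarith

variable (hd0 : d x = 0) (hlip : ∀ b ∈ B, d b.2 ≤ d b.1 + 1 ∧ d b.1 ≤ d b.2 + 1)
  (hcross : ∀ r, (crossing B (level d r)).card ≤ 8 * r + 4)

include hd0 hlip hcross in
lemma phi_decay (hn : 2 ≤ n) (hβ : 0 < β) (r : ℕ) :
    total β B (fun σ => ‖phi n β B d x r σ‖ ^ 2)
      ≤ ((2 + rate n β) / (r + 2 + rate n β)) ^ rate n β * ∫ σ, weight β B σ ∂freeMeasure n V := by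
  haveI := freeMeasure_isProbability (n := n) (V := V)
  set c := rate n β with hc
  have hn1 : (1 : ℝ) ≤ (n : ℝ) - 1 := by
    have : (2 : ℝ) ≤ n := by exact_mod_cast hn
    linarith
  have hc0 : 0 < c := div_pos (by linarith) (by linarith)
  induction r with
  | zero =>
    simp [phi, total, div_self (show (2 : ℝ) + c ≠ 0 by linarith)]
  | succ r ih =>
    set S' := level d (r + 1)
    have hxS : x ∈ S' := by simp [S', level, hd0]
    have heq : ∀ R σ, phi n β B d x r (rot S' R σ) = R (phi n β B d x r σ) := by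
      intro R σ
      have hspin : ∀ σ : V → Sph n, (rot S' R σ x : Vec n) = R (σ x) := fun σ => by
        simp [rot, sphMap, hxS]
      cases r with
      | zero => exact hspin σ
      | succ r =>
        rw [phi_eq]
        refine cond_equivariant β B (S' := S') (by intro v; simp [S', level]; omega) ?_
          (nice_spin x) R hspin σ
        intro b hb
        obtain ⟨h1, h2⟩ := hlip b hb
        simp only [S', level, mem_filter, mem_univ, true_and]
        omega
    set G : ℝ := 8 * (r : ℝ) + 12 with hG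
    have hG0 : 0 < G := by positivity
    have hGle : ((crossing B S').card : ℝ) ≤ G := by
      have : ((crossing B S').card : ℝ) ≤ ((8 * (r + 1) + 4 : ℕ) : ℝ) :=
        Nat.cast_le.2 (hcross (r + 1))
      push_cast at this
      linarith
    have hsq := nice_norm_sq (phi_nice (n := n) β B d x r)
    have hsq' := nice_norm_sq (phi_nice (n := n) β B d x (r + 1))
    have hkey : ((n : ℝ) - 1 + β * G) * total β B (fun σ => ‖phi n β B d x (r + 1) σ‖ ^ 2)
        ≤ β * G * total β B (fun σ => ‖phi n β B d x r σ‖ ^ 2) := by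
      rw [← total_cond β B S' hsq]
      simp only [total, smul_eq_mul]
      rw [← integral_const_mul, ← integral_const_mul]
      refine integral_mono ?_ ?_ fun σ => ?_
      · have : Integrable (fun σ => weight β B σ • ‖phi n β B d x (r + 1) σ‖ ^ 2) (freeMeasure n V) :=
          (hsq'.wsmul β B).integrable
        exact this.const_mul _
      · have : Integrable (fun σ => weight β B σ •
            cond β B S' (fun σ => ‖phi n β B d x r σ‖ ^ 2) σ) (freeMeasure n V) :=
          ((hsq.cond β B S').wsmul β B).integrable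
        exact this.const_mul _
      · have h := mul_le_mul_of_nonneg_left
          (shell_ineq β B hn hβ hG0 hGle (phi_nice (n := n) β B d x r) heq σ)
          (weight_pos β B σ).le
        change _ * (weight β B σ * ‖cond β B S' (phi n β B d x r) σ‖ ^ 2) ≤ _
        linarith
    have hpos : 0 < (n : ℝ) - 1 + β * G := by positivity
    have hq : β * G / ((n : ℝ) - 1 + β * G) ≤ ((r : ℝ) + 2) / ((r : ℝ) + 2 + c) := by
      have hn8 : (n : ℝ) - 1 = 8 * β * c := by rw [hc, rate]; field_simp
      rw [div_le_div_iff₀ hpos (by positivity), hn8, hG]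
      nlinarith [mul_pos hβ hc0]
    have hZ : 0 ≤ ∫ σ, weight β B σ ∂freeMeasure n V :=
      integral_nonneg fun σ => (weight_pos β B σ).le
    have hnn : 0 ≤ total β B (fun σ => ‖phi n β B d x r σ‖ ^ 2) :=
      integral_nonneg fun σ => mul_nonneg (weight_pos β B σ).le (sq_nonneg _)
    calc total β B (fun σ => ‖phi n β B d x (r + 1) σ‖ ^ 2)
        ≤ β * G / ((n : ℝ) - 1 + β * G) * total β B (fun σ => ‖phi n β B d x r σ‖ ^ 2) := by
          rw [div_mul_eq_mul_div, le_div_iff₀ hpos]; linarith
      _ ≤ (((r : ℝ) + 2 + c) / ((r : ℝ) + 3 + c)) ^ c *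
            (((2 + c) / ((r : ℝ) + 2 + c)) ^ c * ∫ σ, weight β B σ ∂freeMeasure n V) :=
          mul_le_mul (hq.trans (rate_step hc0 r)) ih hnn (by positivity)
      _ = _ := by
          rw [← mul_assoc, ← Real.mul_rpow (by positivity) (by positivity)]
          congr 2
          push_cast
          field_simp
          ring

omit [DecidableEq V] in
lemma abs_corr_le_one (y z : V) : |corr n β B y z| ≤ 1 := by
  haveI := freeMeasure_isProbability (n := n) (V := V)
  have hw : Nice fun σ : V → Sph n => weight β B σ :=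
    ⟨measurable_weight β B, _, fun σ => by
      rw [Real.norm_eq_abs, abs_of_pos (weight_pos β B σ)]; exact weight_le β B σ⟩
  have hZ : 0 ≤ ∫ σ, weight β B σ ∂freeMeasure n V :=
    integral_nonneg fun σ => (weight_pos β B σ).le
  rw [corr, abs_div, abs_of_nonneg hZ]
  refine div_le_one_of_le₀ ?_ hZ
  rw [← Real.norm_eq_abs]
  refine norm_integral_le_of_norm_le hw.integrable (Filter.Eventually.of_forall fun σ => ?_)
  rw [norm_mul, Real.norm_eq_abs, Real.norm_eq_abs, abs_of_pos (weight_pos β B σ)]
  refine mul_le_of_le_one_left (weight_pos β B σ).le ?_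
  exact (abs_real_inner_le_norm _ _).trans (by simp [norm_spin])

/-- Decay between two points whose level sets stay apart. -/
theorem corr_decay (hn : 2 ≤ n) (hβ : 0 < β) (y : V) (d' : V → ℕ)
    (hd : d x = 0) (hd' : d' y = 0)
    (hl : ∀ b ∈ B, d b.2 ≤ d b.1 + 1 ∧ d b.1 ≤ d b.2 + 1)
    (hl' : ∀ b ∈ B, d' b.2 ≤ d' b.1 + 1 ∧ d' b.1 ≤ d' b.2 + 1)
    (hc : ∀ r, (crossing B (level d r)).card ≤ 8 * r + 4)
    (hc' : ∀ r, (crossing B (level d' r)).card ≤ 8 * r + 4)
    {N : ℕ} (hsum : ∀ v, N ≤ d v + d' v) {J : ℕ} (hJ : J = 0 ∨ 2 * J + 1 < N) :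
    |corr n β B x y| ≤ ((2 + rate n β) / (J + 2 + rate n β)) ^ rate n β := by
  haveI := freeMeasure_isProbability (n := n) (V := V)
  have hrate : 0 < rate n β := by
    have : (2 : ℝ) ≤ n := by exact_mod_cast hn
    exact div_pos (by linarith) (by linarith)
  rcases hJ with rfl | hJ
  · rw [Nat.cast_zero, zero_add, div_self (by linarith), Real.one_rpow]
    exact abs_corr_le_one β B x y
  cases J with
  | zero =>
    rw [Nat.cast_zero, zero_add, div_self (by linarith), Real.one_rpow]
    exact abs_corr_le_one β B x y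
  | succ J =>
    set Sx := level d (J + 1) with hSx
    set Sy := level d' (J + 1) with hSy
    set Z := ∫ σ, weight β B σ ∂freeMeasure n V with hZ
    have hy : y ∉ Sx := fun h => by
      have := hsum y
      simp only [hSx, level, mem_filter, mem_univ, true_and] at h
      omega
    have hind : ∀ η ζ, phi n β B d x (J + 1) (merge Sy η ζ) = phi n β B d x (J + 1) η := by
      intro η ζ
      rw [phi_eq]
      have hxS : x ∈ Sx := by simp [hSx, level, hd]
      refine cond_transport β B Sx (nice_spin x) (ContinuousLinearMap.id ℝ (Vec n))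
        (MeasurePreserving.id _) (κ := energy B (merge Sy η ζ) - energy B η) (fun ξ => ?_)
        (fun ξ => by simp [merge, hxS])
      simp only [id_eq, energy]
      rw [← sum_sub_distrib, ← sum_add_distrib]
      refine sum_congr rfl fun b hb => ?_
      obtain ⟨l1, l2⟩ := hl b hb
      have s1 := hsum b.1
      have s2 := hsum b.2
      by_cases ht : b.1 ∈ Sx ∨ b.2 ∈ Sx
      · have a1 : b.1 ∉ Sy := by
          simp only [hSx, hSy, level, mem_filter, mem_univ, true_and] at ht ⊢; omega
        have a2 : b.2 ∉ Sy := by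
          simp only [hSx, hSy, level, mem_filter, mem_univ, true_and] at ht ⊢; omega
        by_cases q1 : b.1 ∈ Sx <;> by_cases q2 : b.2 ∈ Sx <;> simp [merge, a1, a2, q1, q2]
      · push Not at ht
        simp [merge, ht.1, ht.2]
    have px := phi_nice (n := n) β B d x (J + 1)
    have py := phi_nice (n := n) β B d' y (J + 1)
    have e1 : total β B (fun σ : V → Sph n => ⟪(σ x : Vec n), (σ y : Vec n)⟫)
        = total β B (fun σ : V → Sph n => ⟪phi n β B d x (J + 1) σ, (σ y : Vec n)⟫) := by
      rw [total_inner_cond β B Sx (nice_spin x) (nice_spin y) (fun η ζ => by simp [merge, hy]),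
        phi_eq]
    have e2 : total β B (fun σ : V → Sph n => ⟪phi n β B d x (J + 1) σ, (σ y : Vec n)⟫)
        = total β B (fun σ : V → Sph n => ⟪phi n β B d' y (J + 1) σ, phi n β B d x (J + 1) σ⟫) := by
      simp only [fun σ : V → Sph n => real_inner_comm (σ y : Vec n) (phi n β B d x (J + 1) σ)]
      rw [total_inner_cond β B Sy (nice_spin y) px hind, phi_eq β B d' y]
    have bx := phi_decay β B d x hd hl hc hn hβ (J + 1)
    have by' := phi_decay β B d' y hd' hl' hc' hn hβ (J + 1)
    set R := ((2 + rate n β) / (((J + 1 : ℕ) : ℝ) + 2 + rate n β)) ^ rate n β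
    have hZ0 : 0 < Z := lt_of_lt_of_le (Real.exp_pos (-(|β| * B.card))) (by
      have hw : Nice fun σ : V → Sph n => weight β B σ :=
        ⟨measurable_weight β B, _, fun σ => by
          rw [Real.norm_eq_abs, abs_of_pos (weight_pos β B σ)]; exact weight_le β B σ⟩
      calc Real.exp (-(|β| * B.card))
          = ∫ _σ : V → Sph n, Real.exp (-(|β| * B.card)) ∂freeMeasure n V := by simp
        _ ≤ Z := integral_mono (integrable_const _) hw.integrable fun σ => le_weight β B σ)
    have habs : |total β B (fun σ : V → Sph n => ⟪(σ x : Vec n), (σ y : Vec n)⟫)| ≤ R * Z := by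
      rw [e1, e2, total]
      set P := phi n β B d x (J + 1)
      set Q := phi n β B d' y (J + 1)
      have ix : Integrable (fun σ => weight β B σ • ‖P σ‖ ^ 2) (freeMeasure n V) :=
        ((nice_norm_sq px).wsmul β B).integrable
      have iy : Integrable (fun σ => weight β B σ • ‖Q σ‖ ^ 2) (freeMeasure n V) :=
        ((nice_norm_sq py).wsmul β B).integrable
      have hhalf : ∫ σ, (1 / 2 : ℝ) * (weight β B σ • ‖P σ‖ ^ 2 + weight β B σ • ‖Q σ‖ ^ 2)
          ∂freeMeasure n V ≤ R * Z := by
        rw [integral_const_mul, integral_add ix iy]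
        simp only [total] at bx by'
        linarith
      refine le_trans ?_ hhalf
      rw [← Real.norm_eq_abs]
      refine norm_integral_le_of_norm_le ((ix.add iy).const_mul _) (Filter.Eventually.of_forall fun σ => ?_)
      rw [norm_smul, Real.norm_eq_abs, Real.norm_eq_abs, abs_of_pos (weight_pos β B σ),
        smul_eq_mul, smul_eq_mul]
      have h := (abs_real_inner_le_norm (Q σ) (P σ)).trans
        (show ‖Q σ‖ * ‖P σ‖ ≤ (1 / 2 : ℝ) * (‖P σ‖ ^ 2 + ‖Q σ‖ ^ 2) by
          nlinarith [sq_nonneg (‖Q σ‖ - ‖P σ‖)])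
      have := mul_le_mul_of_nonneg_left h (weight_pos β B σ).le
      linarith
    have htot : total β B (fun σ : V → Sph n => ⟪(σ x : Vec n), (σ y : Vec n)⟫)
        = ∫ σ, ⟪(σ x : Vec n), (σ y : Vec n)⟫ * weight β B σ ∂freeMeasure n V :=
      integral_congr_ae (Filter.Eventually.of_forall fun σ => mul_comm _ _)
    rw [corr, ← hZ, ← htot, abs_div, abs_of_pos hZ0, div_le_iff₀ hZ0]
    exact habs

end Vale.Agent.P163
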