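import Mathlib

/-!
The nearest neighbour O(n) model in finite volume, with free or periodic boundary conditions.
-/

open MeasureTheory

namespace Vale.Agent.P163

/-- The ambient space of the spins. -/
abbrev Vec (n : ℕ) := EuclideanSpace ℝ (Fin n)

/-- The unit sphere of `ℝ ^ n`. -/
abbrev Sph (n : ℕ) := Metric.sphere (0 : Vec n) 1

/-- The normalized uniform measure on the unit sphere. -/
noncomputable def omega (n : ℕ) : Measure (Sph n) :=
  ((volume : Measure (Vec n)).toSphere Set.univ)⁻¹ • (volume : Measure (Vec n)).toSphere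

variable {V : Type*} [Fintype V]

/-- The product of the uniform measures. -/
noncomputable def freeMeasure (n : ℕ) (V : Type*) [Fintype V] : Measure (V → Sph n) :=
  Measure.pi fun _ => omega n

/-- The Boltzmann weight of a configuration for a list of bonds. -/
noncomputable def weight {n : ℕ} (β : ℝ) (B : Finset (V × V)) (σ : V → Sph n) : ℝ :=
  Real.exp (β * ∑ b ∈ B, inner ℝ (σ b.1 : Vec n) (σ b.2 : Vec n))

/-- The two point function. -/
noncomputable def corr (n : ℕ) (β : ℝ) (B : Finset (V × V)) (x y : V) : ℝ :=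
  (∫ σ, inner ℝ (σ x : Vec n) (σ y : Vec n) * weight β B σ ∂freeMeasure n V) /
    ∫ σ, weight β B σ ∂freeMeasure n V

/-- The nearest neighbour bonds inside a finite set of the square lattice, each listed once. -/
def freeBonds (Λ : Finset (ℤ × ℤ)) : Finset (↥Λ × ↥Λ) :=
  Finset.univ.filter fun b => (b.2 : ℤ × ℤ) = (b.1 : ℤ × ℤ) + (1, 0) ∨
    (b.2 : ℤ × ℤ) = (b.1 : ℤ × ℤ) + (0, 1)

/-- The nearest neighbour bonds of the discrete torus, each listed once for side at least three. -/
def torusBonds (L : ℕ) [NeZero L] : Finset ((ZMod L × ZMod L) × (ZMod L × ZMod L)) :=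
  Finset.univ.filter fun b => b.2 = b.1 + (1, 0) ∨ b.2 = b.1 + (0, 1)

/-- The Euclidean distance in the square lattice. -/
noncomputable def eDist (u v : ℤ × ℤ) : ℝ :=
  Real.sqrt (((u.1 : ℝ) - v.1) ^ 2 + ((u.2 : ℝ) - v.2) ^ 2)

/-- The projection of the square lattice to the torus. -/
def proj (L : ℕ) (u : ℤ × ℤ) : ZMod L × ZMod L := ((u.1 : ZMod L), (u.2 : ZMod L))

end Vale.Agent.P163
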