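import Vale.Agent.P163.Decay

/-!
Level sets of the square lattice and of the torus.
-/

open Finset

namespace Vale.Agent.P163

/-- The sup norm on `ℤ × ℤ`. -/
def supNorm (p : ℤ × ℤ) : ℕ := max p.1.natAbs p.2.natAbs

/-- The lower end points, relative to the centre, of the bonds leaving the square of radius `r`. -/
noncomputable def rim (r : ℕ) : Finset ((ℤ × ℤ) × (ℤ × ℤ)) :=
  (({(r : ℤ), -(r : ℤ) - 1} : Finset ℤ) ×ˢ Icc (-(r : ℤ)) r).image (fun p => (p, ((1 : ℤ), (0 : ℤ)))) ∪
    ((Icc (-(r : ℤ)) r) ×ˢ ({(r : ℤ), -(r : ℤ) - 1} : Finset ℤ)).image (fun p => (p, ((0 : ℤ), (1 : ℤ))))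

lemma card_rim (r : ℕ) : (rim r).card ≤ 8 * r + 4 := by
  refine (card_union_le _ _).trans ?_
  refine (add_le_add card_image_le card_image_le).trans ?_
  rw [card_product, card_product, card_pair (show (r : ℤ) ≠ -(r : ℤ) - 1 by omega), Int.card_Icc]
  omega

variable {W : Type*} [AddCommGroup W] [DecidableEq W] (q : ℤ × ℤ →+ W)
  {V : Type*} [Fintype V] [DecidableEq V] (emb : V → W)

lemma crossing_le (hemb : Function.Injective emb) (B : Finset (V × V))
    (hB : ∀ b ∈ B, emb b.2 = emb b.1 + q (1, 0) ∨ emb b.2 = emb b.1 + q (0, 1))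
    (o : W) (D : W → ℕ) (hrep : ∀ u, ∃ p, q p = u - o ∧ supNorm p = D u)
    (hmin : ∀ p, D (o + q p) ≤ supNorm p) (r : ℕ) :
    (crossing B (level (fun v => D (emb v)) r)).card ≤ 8 * r + 4 := by
  classical
  refine le_trans ?_ (card_rim r)
  refine (card_le_card_of_injOn (fun b => (emb b.1, emb b.2))
    (t := (rim r).image fun e => (o + q e.1, o + q e.1 + q e.2)) ?_ ?_).trans card_image_le
  · intro b hb
    simp only [crossing, level, mem_coe, mem_filter, mem_univ, true_and] at hb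
    simp only [mem_coe, mem_image]
    obtain ⟨p, hp, hpn⟩ := hrep (emb b.1)
    obtain ⟨p', hp', hpn'⟩ := hrep (emb b.2)
    have e1 : o + q p = emb b.1 := by rw [hp]; abel
    have e2 : o + q p' = emb b.2 := by rw [hp']; abel
    rcases hB b hb.1 with hh | hh
    · by_cases hin : D (emb b.1) ≤ r
      · have hout : r < D (emb b.2) := lt_of_not_ge fun h => hb.2 (iff_of_true hin h)
        have h3 := hmin (p + (1, 0))
        rw [map_add, ← add_assoc, e1, ← hh] at h3
        refine ⟨(p, (1, 0)), mem_union_left _ (mem_image.2 ⟨p, ?_, rfl⟩), ?_⟩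
        · simp only [supNorm, Prod.fst_add, Prod.snd_add, add_zero] at h3 hpn
          simp only [mem_product, mem_insert, mem_singleton, mem_Icc]
          omega
        · simp [e1, hh]
      · have hin' : D (emb b.2) ≤ r := by_contra fun h => hb.2 (iff_of_false hin h)
        have e1' : o + q (p' - (1, 0)) = emb b.1 := by
          rw [map_sub, ← add_sub_assoc, e2, hh]; abel
        have h3 := hmin (p' - (1, 0))
        rw [e1'] at h3
        refine ⟨(p' - (1, 0), (1, 0)), mem_union_left _ (mem_image.2 ⟨_, ?_, rfl⟩), ?_⟩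
        · simp only [supNorm, Prod.fst_sub, Prod.snd_sub, sub_zero] at h3 hpn'
          simp only [mem_product, mem_insert, mem_singleton, mem_Icc, Prod.fst_sub, Prod.snd_sub,
            sub_zero]
          omega
        · simp only [Prod.mk.injEq]; exact ⟨e1', by rw [e1', hh]⟩
    · by_cases hin : D (emb b.1) ≤ r
      · have hout : r < D (emb b.2) := lt_of_not_ge fun h => hb.2 (iff_of_true hin h)
        have h3 := hmin (p + (0, 1))
        rw [map_add, ← add_assoc, e1, ← hh] at h3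
        refine ⟨(p, (0, 1)), mem_union_right _ (mem_image.2 ⟨p, ?_, rfl⟩), ?_⟩
        · simp only [supNorm, Prod.fst_add, Prod.snd_add, add_zero] at h3 hpn
          simp only [mem_product, mem_insert, mem_singleton, mem_Icc]
          omega
        · simp [e1, hh]
      · have hin' : D (emb b.2) ≤ r := by_contra fun h => hb.2 (iff_of_false hin h)
        have e1' : o + q (p' - (0, 1)) = emb b.1 := by
          rw [map_sub, ← add_sub_assoc, e2, hh]; abel
        have h3 := hmin (p' - (0, 1))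
        rw [e1'] at h3
        refine ⟨(p' - (0, 1), (0, 1)), mem_union_right _ (mem_image.2 ⟨_, ?_, rfl⟩), ?_⟩
        · simp only [supNorm, Prod.fst_sub, Prod.snd_sub, sub_zero] at h3 hpn'
          simp only [mem_product, mem_insert, mem_singleton, mem_Icc, Prod.fst_sub, Prod.snd_sub,
            sub_zero]
          omega
        · simp only [Prod.mk.injEq]; exact ⟨e1', by rw [e1', hh]⟩
  · intro b _ b' _ e
    simp only [Prod.mk.injEq] at e
    exact Prod.ext (hemb e.1) (hemb e.2)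

omit [DecidableEq W] [Fintype V] [DecidableEq V] in
lemma level_lip (o : W) (D : W → ℕ) (hrep : ∀ u, ∃ p, q p = u - o ∧ supNorm p = D u)
    (hmin : ∀ p, D (o + q p) ≤ supNorm p) (u w : W)
    (h : w = u + q (1, 0) ∨ w = u + q (0, 1)) : D w ≤ D u + 1 ∧ D u ≤ D w + 1 := by
  have gen : ∀ (a : W) (e : ℤ × ℤ), supNorm e ≤ 1 → D (a + q e) ≤ D a + 1 := by
    intro a e he
    obtain ⟨p, hp, hpn⟩ := hrep a
    have h3 := hmin (p + e)
    rw [map_add, hp, show o + (a - o + q e) = a + q e by abel] at h3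
    simp only [supNorm, Prod.fst_add, Prod.snd_add] at h3 hpn he
    omega
  have back : ∀ (a : W) (e : ℤ × ℤ), supNorm e ≤ 1 → D a ≤ D (a + q e) + 1 := fun a e he => by
    have := gen (a + q e) (-e) (by simpa [supNorm] using he)
    simpa [map_neg] using this
  rcases h with rfl | rfl
  · exact ⟨gen u _ (by simp [supNorm]), back u _ (by simp [supNorm])⟩
  · exact ⟨gen u _ (by simp [supNorm]), back u _ (by simp [supNorm])⟩

omit [DecidableEq V] in
/-- The decay on a quotient of the square lattice. -/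
theorem decay_of_quotient (hemb : Function.Injective emb) (B : Finset (V × V))
    (hB : ∀ b ∈ B, emb b.2 = emb b.1 + q (1, 0) ∨ emb b.2 = emb b.1 + q (0, 1))
    (D : W → ℕ) (hrep : ∀ u, ∃ p, q p = u ∧ supNorm p = D u)
    (hmin : ∀ p, D (q p) ≤ supNorm p) {n : ℕ} (hn : 2 ≤ n) {β : ℝ} (hβ : 0 < β) (x y : V)
    {N : ℕ} (hN : N ≤ D (emb y - emb x)) :
    |corr n β B x y| ≤ ((2 * (3 + rate n β)) / (N + 1)) ^ rate n β := by
  classical
  haveI : NeZero n := ⟨by omega⟩
  have hD0 : D 0 = 0 := by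
    have := hmin 0
    simp [supNorm] at this
    exact this
  have hrep' : ∀ o u, ∃ p, q p = u - o ∧ supNorm p = D (u - o) := fun o u => hrep (u - o)
  have hmin' : ∀ o p, D (o + q p - o) ≤ supNorm p := fun o p => by
    rw [add_sub_cancel_left]; exact hmin p
  have hc := fun o r => crossing_le q emb hemb B hB o (fun u => D (u - o)) (hrep' o) (hmin' o) r
  have hl := fun o b (hb : b ∈ B) =>
    level_lip q o (fun u => D (u - o)) (hrep' o) (hmin' o) (emb b.1) (emb b.2) (hB b hb)
  have hsum : ∀ v, N ≤ D (emb v - emb x) + D (emb v - emb y) := by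
    intro v
    obtain ⟨p, hp, hpn⟩ := hrep (emb v - emb x)
    obtain ⟨p', hp', hpn'⟩ := hrep (emb v - emb y)
    have := hmin (p - p')
    rw [map_sub, hp, hp', show emb v - emb x - (emb v - emb y) = emb y - emb x by abel] at this
    simp only [supNorm, Prod.fst_sub, Prod.snd_sub] at this hpn hpn'
    omega
  set J := (N - 2) / 2 with hJ
  have hJ' : J = 0 ∨ 2 * J + 1 < N := by omega
  have h := corr_decay (n := n) β B (fun v => D (emb v - emb x)) x hn hβ y
    (fun v => D (emb v - emb y)) (by simp [hD0]) (by simp [hD0]) (hl (emb x)) (hl (emb y))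
    (hc (emb x)) (hc (emb y)) hsum hJ'
  have hr : 0 < rate n β := by
    have : (2 : ℝ) ≤ n := by exact_mod_cast hn
    exact div_pos (by linarith) (by linarith)
  refine h.trans (Real.rpow_le_rpow (by positivity) ?_ hr.le)
  rw [div_le_div_iff₀ (by positivity) (by positivity)]
  have hJN : ((N : ℝ) + 1) ≤ 2 * ((J : ℝ) + 2) := by
    exact_mod_cast (show N + 1 ≤ 2 * (J + 2) by omega)
  nlinarith

lemma eDist_le (u v : ℤ × ℤ) : eDist u v ≤ 2 * (supNorm (v - u) : ℝ) := by
  rw [eDist, Real.sqrt_le_iff]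
  refine ⟨by positivity, ?_⟩
  have h1 : |((v.1 - u.1 : ℤ) : ℝ)| ≤ (supNorm (v - u) : ℝ) := by
    rw [← Int.cast_abs, Int.abs_eq_natAbs, Int.cast_natCast]
    exact Nat.cast_le.2 (le_max_left _ _)
  have h2 : |((v.2 - u.2 : ℤ) : ℝ)| ≤ (supNorm (v - u) : ℝ) := by
    rw [← Int.cast_abs, Int.abs_eq_natAbs, Int.cast_natCast]
    exact Nat.cast_le.2 (le_max_right _ _)
  push_cast at h1 h2
  nlinarith [sq_abs ((v.1 : ℝ) - u.1), sq_abs ((v.2 : ℝ) - u.2),
    abs_nonneg ((v.1 : ℝ) - u.1), abs_nonneg ((v.2 : ℝ) - u.2)]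

lemma eDist_pos {u v : ℤ × ℤ} (h : u ≠ v) : 0 < eDist u v := by
  refine Real.sqrt_pos.2 ?_
  by_contra hle
  push Not at hle
  have h1 : ((u.1 : ℝ) - v.1) ^ 2 = 0 := by nlinarith [sq_nonneg ((u.2 : ℝ) - v.2)]
  have h2 : ((u.2 : ℝ) - v.2) ^ 2 = 0 := by nlinarith [sq_nonneg ((u.1 : ℝ) - v.1)]
  rw [sq_eq_zero_iff, sub_eq_zero, Int.cast_inj] at h1 h2
  exact h (Prod.ext h1 h2)

/-- The projection as a homomorphism. -/
def projHom (L : ℕ) : ℤ × ℤ →+ ZMod L × ZMod L where
  toFun := proj L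
  map_zero' := by simp [proj]
  map_add' u v := by simp [proj]

@[simp] lemma projHom_apply (L : ℕ) (u : ℤ × ℤ) :
    projHom L u = ((u.1 : ZMod L), (u.2 : ZMod L)) := rfl

/-- The torus sup norm. -/
def torusNorm {L : ℕ} (u : ZMod L × ZMod L) : ℕ := max u.1.valMinAbs.natAbs u.2.valMinAbs.natAbs

lemma valMinAbs_le {L : ℕ} [NeZero L] (a : ℤ) : ((a : ZMod L).valMinAbs).natAbs ≤ a.natAbs :=
  ZMod.natAbs_min_of_le_div_two L _ a (by rw [ZMod.coe_valMinAbs]) (ZMod.natAbs_valMinAbs_le _)

/-- Algebraic decay with exponent `(n - 1) / (8 β)` in all finite free and periodic volumes. -/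
theorem algebraic_decay (n : ℕ) (hn : 2 ≤ n) (β : ℝ) (hβ : 0 < β) :
    ∃ C : ℝ,
      (∀ (Λ : Finset (ℤ × ℤ)) (x y : ↥Λ), x ≠ y →
        |corr n β (freeBonds Λ) x y| ≤ C * eDist x y ^ (-(((n : ℝ) - 1) / (8 * β)))) ∧
      (∀ (L : ℕ) [NeZero L] (u v : ℤ × ℤ), u ≠ v →
        2 * (v.1 - u.1).natAbs ≤ L → 2 * (v.2 - u.2).natAbs ≤ L →
        |corr n β (torusBonds L) (proj L u) (proj L v)| ≤
          C * eDist u v ^ (-(((n : ℝ) - 1) / (8 * β)))) := by
  classical
  set c := rate n β with hc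
  have hc0 : 0 < c := by
    have : (2 : ℝ) ≤ n := by exact_mod_cast hn
    exact div_pos (by linarith) (by linarith)
  have fin : ∀ (N : ℕ) (e : ℝ), 0 < e → e ≤ 2 * N →
      ((2 * (3 + c)) / ((N : ℝ) + 1)) ^ c ≤ (4 * (3 + c)) ^ c * e ^ (-c) := by
    intro N e he hle
    rw [Real.rpow_neg he.le, ← Real.inv_rpow he.le, ← Real.mul_rpow (by positivity) (by positivity)]
    refine Real.rpow_le_rpow (by positivity) ?_ hc0.le
    rw [← div_eq_mul_inv, div_le_div_iff₀ (by positivity) he]
    nlinarith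
  refine ⟨(4 * (3 + c)) ^ c, ?_, ?_⟩
  · intro Λ x y hxy
    have h := decay_of_quotient (AddMonoidHom.id (ℤ × ℤ)) (fun v : ↥Λ => (v : ℤ × ℤ))
      Subtype.coe_injective (freeBonds Λ) (fun b hb => (mem_filter.1 hb).2) supNorm
      (fun u => ⟨u, rfl, rfl⟩) (fun p => le_rfl) hn hβ x y (le_refl _)
    exact h.trans (fin _ _ (eDist_pos fun e => hxy (Subtype.ext e)) (eDist_le _ _))
  · intro L _ u v huv h1 h2
    have h := decay_of_quotient (projHom L) (fun w : ZMod L × ZMod L => w) Function.injective_id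
      (torusBonds L) (fun b hb => by simpa using (mem_filter.1 hb).2) torusNorm
      (fun w => ⟨(w.1.valMinAbs, w.2.valMinAbs), by simp, rfl⟩)
      (fun p => max_le_max (valMinAbs_le p.1) (valMinAbs_le p.2)) hn hβ (proj L u) (proj L v)
      (N := supNorm (v - u)) (by
        have key : ∀ a : ℤ, 2 * a.natAbs ≤ L → a.natAbs ≤ ((a : ZMod L).valMinAbs).natAbs := fun a ha =>
          ZMod.natAbs_min_of_le_div_two L a _ (by rw [ZMod.coe_valMinAbs]) (by omega)
        have e : proj L v - proj L u = proj L (v - u) := ((projHom L).map_sub v u).symm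
        rw [e]
        exact max_le_max (key _ h1) (key _ h2))
    exact h.trans (fin _ _ (eDist_pos huv) (eDist_le _ _))

end Vale.Agent.P163
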