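import Vale.Agent.P163.Core

/-!
The shell inequality: a finite rotation form of the Bogoliubov inequality.
-/

open MeasureTheory Finset Real
open scoped RealInnerProductSpace

namespace Vale.Agent.P163

variable {n : ℕ}

/-- The rotation by the angle `s` in the plane of the orthonormal pair `(u, v)`, as a linear map. -/
noncomputable def planeRot (u v : Vec n) (s : ℝ) : Vec n →ₗ[ℝ] Vec n where
  toFun x := x + ((cos s - 1) * ⟪u, x⟫ - sin s * ⟪v, x⟫) • u
    + (sin s * ⟪u, x⟫ + (cos s - 1) * ⟪v, x⟫) • v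
  map_add' x y := by
    simp only [inner_add_right]
    module
  map_smul' c x := by
    simp only [real_inner_smul_right, RingHom.id_apply]
    module

variable {u v : Vec n} (hu : ⟪u, u⟫ = 1) (hv : ⟪v, v⟫ = 1) (huv : ⟪u, v⟫ = 0)

include hu hv huv in
lemma planeRot_inner (s : ℝ) (x y : Vec n) : ⟪planeRot u v s x, planeRot u v s y⟫ = ⟪x, y⟫ := by
  have hvu : ⟪v, u⟫ = 0 := by rw [real_inner_comm]; exact huv
  simp only [planeRot, LinearMap.coe_mk, AddHom.coe_mk, inner_add_left, inner_add_right,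
    real_inner_smul_left, real_inner_smul_right, hu, hv, huv, hvu, real_inner_comm u x,
    real_inner_comm v x]
  linear_combination (⟪u, x⟫ * ⟪u, y⟫ + ⟪v, x⟫ * ⟪v, y⟫) * (sin_sq_add_cos_sq s)

/-- The rotation as an isometry. -/
noncomputable def planeIso (s : ℝ) : Vec n ≃ₗᵢ[ℝ] Vec n :=
  ((planeRot u v s).isometryOfInner (planeRot_inner hu hv huv s)).toLinearIsometryEquiv rfl

@[simp] lemma planeIso_apply (s : ℝ) (x : Vec n) :
    planeIso hu hv huv s x = planeRot u v s x := rfl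

include hu hv huv in
lemma planeRot_neg (s : ℝ) (x : Vec n) : planeRot u v (-s) (planeRot u v s x) = x := by
  have hvu : ⟪v, u⟫ = 0 := by rw [real_inner_comm]; exact huv
  simp only [planeRot, LinearMap.coe_mk, AddHom.coe_mk, inner_add_right, real_inner_smul_right,
    hu, hv, huv, hvu, cos_neg, sin_neg]
  have h := sin_sq_add_cos_sq s
  match_scalars
  · ring
  · linear_combination (⟪u, x⟫) * h
  · linear_combination (⟪v, x⟫) * h

include hu hv huv in
lemma inner_planeRot_snd (s : ℝ) (x : Vec n) :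
    ⟪v, planeRot u v s x⟫ = sin s * ⟪u, x⟫ + cos s * ⟪v, x⟫ := by
  have hvu : ⟪v, u⟫ = 0 := by rw [real_inner_comm]; exact huv
  simp only [planeRot, LinearMap.coe_mk, AddHom.coe_mk, inner_add_right, real_inner_smul_right,
    hv, hvu]
  ring

lemma planeRot_add_neg (s : ℝ) (x y : Vec n) :
    ⟪planeRot u v s x, y⟫ + ⟪planeRot u v (-s) x, y⟫
      = 2 * ⟪x, y⟫ + 2 * (cos s - 1) * (⟪u, x⟫ * ⟪u, y⟫ + ⟪v, x⟫ * ⟪v, y⟫) := by
  simp only [planeRot, LinearMap.coe_mk, AddHom.coe_mk, inner_add_left, real_inner_smul_left,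
    cos_neg, sin_neg]
  ring

variable {V : Type*} [Fintype V] [DecidableEq V]

/-- The bonds with exactly one end in `S`. -/
def crossing (B : Finset (V × V)) (S : Finset V) : Finset (V × V) :=
  B.filter fun b => ¬ (b.1 ∈ S ↔ b.2 ∈ S)

lemma energy_rot (B : Finset (V × V)) (S : Finset V) (R : Vec n ≃ₗᵢ[ℝ] Vec n) (σ : V → Sph n) :
    energy B (rot S R σ) - energy B σ = ∑ b ∈ crossing B S,
      (⟪(rot S R σ b.1 : Vec n), (rot S R σ b.2 : Vec n)⟫ - ⟪(σ b.1 : Vec n), (σ b.2 : Vec n)⟫) := by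
  rw [energy, energy, ← sum_sub_distrib]
  refine (sum_subset (filter_subset _ _) fun b hb hb' => ?_).symm
  have hiff : b.1 ∈ S ↔ b.2 ∈ S := by
    by_contra h
    exact hb' (mem_filter.2 ⟨hb, h⟩)
  by_cases h : b.1 ∈ S
  · simp [rot, sphMap, h, hiff.1 h]
  · have h' : b.2 ∉ S := fun h' => h (hiff.2 h')
    simp [rot, h, h']

variable [NeZero n] (β : ℝ) (B : Finset (V × V))

/-- Conditioning inside `S'` commutes with rotations of a larger set. -/
lemma cond_equivariant {S S' : Finset V} (hS : S ⊆ S')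
    (hsep : ∀ b ∈ B, (b.1 ∈ S → b.2 ∈ S') ∧ (b.2 ∈ S → b.1 ∈ S'))
    {g : (V → Sph n) → Vec n} (hg : Nice g) (R : Vec n ≃ₗᵢ[ℝ] Vec n)
    (hgR : ∀ σ, g (rot S' R σ) = R (g σ)) (σ : V → Sph n) :
    cond β B S g (rot S' R σ) = R (cond β B S g σ) := by
  classical
  have hcomm : ∀ ζ, merge S (rot S' R σ) (rot S' R ζ) = rot S' R (merge S σ ζ) := fun ζ => by
    funext x
    by_cases h1 : x ∈ S <;> by_cases h2 : x ∈ S' <;> simp [merge, rot, h1, h2]
  refine cond_transport β B S hg (R.toLinearIsometry.toContinuousLinearMap)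
    (rot_measurePreserving S' R) (κ := energy B (rot S' R σ) - energy B σ) (fun ζ => ?_)
    (fun ζ => by rw [hcomm, hgR]; rfl)
  rw [hcomm, ← sub_eq_iff_eq_add', energy_rot, energy_rot]
  refine sum_congr rfl fun b hb => ?_
  simp only [crossing, mem_filter] at hb
  obtain ⟨h1, h2⟩ := hsep b hb.1
  have e1 : b.1 ∉ S := fun h => hb.2 (by simp [hS h, h1 h])
  have e2 : b.2 ∉ S := fun h => hb.2 (by simp [hS h, h2 h])
  simp [rot, merge, e1, e2]

lemma sub_sq_exp (A₁ A₂ A₀ : ℝ) :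
    (exp (A₁ / 2) - exp (A₂ / 2)) ^ 2 ≤ exp A₁ + exp A₂ - 2 * exp A₀
      - exp A₀ * (A₁ + A₂ - 2 * A₀) := by
  have h1 : exp (A₁ / 2) ^ 2 = exp A₁ := by rw [sq, ← exp_add, add_halves]
  have h2 : exp (A₂ / 2) ^ 2 = exp A₂ := by rw [sq, ← exp_add, add_halves]
  have h3 : exp (A₁ / 2) * exp (A₂ / 2) = exp A₀ * exp ((A₁ + A₂ - 2 * A₀) / 2) := by
    rw [← exp_add, ← exp_add]; ring_nf
  have h4 := mul_le_mul_of_nonneg_left (add_one_le_exp ((A₁ + A₂ - 2 * A₀) / 2)) (exp_pos A₀).le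
  nlinarith

lemma diff_le (f A₁ A₂ l : ℝ) (hl : 0 < l) :
    f * (exp A₁ - exp A₂) ≤ l * (f ^ 2 * (exp A₁ + exp A₂))
      + (exp (A₁ / 2) - exp (A₂ / 2)) ^ 2 / (2 * l) := by
  have h1 : exp (A₁ / 2) ^ 2 = exp A₁ := by rw [sq, ← exp_add, add_halves]
  have h2 : exp (A₂ / 2) ^ 2 = exp A₂ := by rw [sq, ← exp_add, add_halves]
  set a := exp (A₁ / 2)
  set b := exp (A₂ / 2)
  rw [← h1, ← h2]
  have key : 2 * l * (f * (a ^ 2 - b ^ 2)) ≤ 2 * l ^ 2 * (f ^ 2 * (a ^ 2 + b ^ 2)) + (a - b) ^ 2 := by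
    nlinarith [sq_nonneg (l * f * (a + b) - (a - b)), sq_nonneg (l * f * (a - b))]
  rw [← sub_nonneg]
  have e : l * (f ^ 2 * (a ^ 2 + b ^ 2)) + (a - b) ^ 2 / (2 * l) - f * (a ^ 2 - b ^ 2)
      = (2 * l ^ 2 * (f ^ 2 * (a ^ 2 + b ^ 2)) + (a - b) ^ 2
        - 2 * l * (f * (a ^ 2 - b ^ 2))) / (2 * l) := by field_simp
  rw [e]
  exact div_nonneg (by linarith) (by linarith)

/-- The rotation energy of the bonds leaving `S'` in the plane of `(u, v)`. -/
noncomputable def planeEnergy (S' : Finset V) (u v : Vec n) (σ : V → Sph n) : ℝ :=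
  ∑ c ∈ crossing B S', (⟪u, (σ c.1 : Vec n)⟫ ^ 2 + ⟪u, (σ c.2 : Vec n)⟫ ^ 2
    + ⟪v, (σ c.1 : Vec n)⟫ ^ 2 + ⟪v, (σ c.2 : Vec n)⟫ ^ 2) / 2

/-- Weighted integral over the spins of `S'`. -/
noncomputable def slice (S' : Finset V) (η : V → Sph n) (g : (V → Sph n) → ℝ) : ℝ :=
  ∫ ζ, weight β B (merge S' η ζ) * g (merge S' η ζ) ∂freeMeasure n V

omit [DecidableEq V] in
lemma slice_integrable (S' : Finset V) (η : V → Sph n) {g : (V → Sph n) → ℝ} (hg : Nice g) :
    Integrable (fun ζ => weight β B (merge S' η ζ) * g (merge S' η ζ)) (freeMeasure n V) := by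
  haveI := freeMeasure_isProbability (n := n) (V := V)
  simpa [Function.comp_def, smul_eq_mul] using
    ((hg.wsmul β B).comp (measurable_slice S' η)).integrable

omit [Fintype V] [DecidableEq V] [NeZero n] in
lemma sq_inner_le (u : Vec n) (hu : ⟪u, u⟫ = 1) (y : Sph n) : ⟪u, (y : Vec n)⟫ ^ 2 ≤ 1 := by
  have h := abs_real_inner_le_norm u (y : Vec n)
  have hu' : ‖u‖ = 1 := by
    rw [real_inner_self_eq_norm_sq] at hu
    exact (pow_eq_one_iff_of_nonneg (norm_nonneg u) two_ne_zero).1 hu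
  rw [hu', norm_spin, one_mul] at h
  nlinarith [sq_abs ⟪u, (y : Vec n)⟫, abs_nonneg ⟪u, (y : Vec n)⟫]

omit [NeZero n] in
lemma nice_planeEnergy (S' : Finset V) (u v : Vec n) (hu : ⟪u, u⟫ = 1) (hv : ⟪v, v⟫ = 1) :
    Nice (planeEnergy B S' u v) := by
  refine ⟨Finset.measurable_sum _ fun c _ => ?_, ((crossing B S').card : ℝ) * 2, fun σ => ?_⟩
  · refine Measurable.div_const (Measurable.add (Measurable.add (Measurable.add ?_ ?_) ?_) ?_) 2
    all_goals exact (measurable_const.inner (measurable_spin _)).pow_const 2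
  · refine (norm_sum_le _ _).trans ((sum_le_card_nsmul _ _ 2 fun c _ => ?_).trans (by simp))
    rw [Real.norm_eq_abs, abs_of_nonneg (by positivity)]
    linarith [sq_inner_le u hu (σ c.1), sq_inner_le u hu (σ c.2), sq_inner_le v hv (σ c.1),
      sq_inner_le v hv (σ c.2)]

omit [NeZero n] in
/-- Second difference of the energy under opposite rotations. -/
lemma energy_second_diff (S' : Finset V) (s : ℝ) (σ : V → Sph n) :
    -(energy B (rot S' (planeIso hu hv huv s) σ) - energy B σ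
        + (energy B (rot S' (planeIso hu hv huv (-s)) σ) - energy B σ))
      ≤ s ^ 2 * planeEnergy B S' u v σ := by
  rw [energy_rot, energy_rot, ← sum_add_distrib, ← sum_neg_distrib, planeEnergy, mul_sum]
  refine sum_le_sum fun c hc => ?_
  simp only [crossing, mem_filter] at hc
  have aux : ∀ x y : Vec n,
      -((⟪planeRot u v s x, y⟫ - ⟪x, y⟫) + (⟪planeRot u v (-s) x, y⟫ - ⟪x, y⟫))
        ≤ s ^ 2 * ((⟪u, x⟫ ^ 2 + ⟪u, y⟫ ^ 2 + ⟪v, x⟫ ^ 2 + ⟪v, y⟫ ^ 2) / 2) := by
    intro x y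
    have e := planeRot_add_neg (u := u) (v := v) s x y
    have hc1 : 1 - cos s ≤ s ^ 2 / 2 := by linarith [one_sub_sq_div_two_le_cos (x := s)]
    have hc0 : 0 ≤ 1 - cos s := sub_nonneg.2 (cos_le_one s)
    have h5 : ⟪u, x⟫ * ⟪u, y⟫ + ⟪v, x⟫ * ⟪v, y⟫
        ≤ (⟪u, x⟫ ^ 2 + ⟪u, y⟫ ^ 2 + ⟪v, x⟫ ^ 2 + ⟪v, y⟫ ^ 2) / 2 := by
      linarith [two_mul_le_add_sq ⟪u, x⟫ ⟪u, y⟫, two_mul_le_add_sq ⟪v, x⟫ ⟪v, y⟫]
    have h6 := mul_le_mul_of_nonneg_left h5 hc0
    have h7 := mul_le_mul_of_nonneg_right hc1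
      (show 0 ≤ (⟪u, x⟫ ^ 2 + ⟪u, y⟫ ^ 2 + ⟪v, x⟫ ^ 2 + ⟪v, y⟫ ^ 2) / 2 by positivity)
    linarith
  by_cases h : c.1 ∈ S'
  · have h' : c.2 ∉ S' := fun h' => hc.2 (by simp [h, h'])
    simp only [rot, sphMap, if_pos h, if_neg h', planeIso_apply]
    exact aux _ _
  · have h' : c.2 ∈ S' := by_contra fun h' => hc.2 (by simp [h, h'])
    simp only [rot, sphMap, if_pos h', if_neg h, planeIso_apply]
    have := aux (σ c.2 : Vec n) (σ c.1 : Vec n)
    simp only [real_inner_comm _ (σ c.1 : Vec n)] at this ⊢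
    linarith

lemma slice_sub (S' : Finset V) (η : V → Sph n) {g g' : (V → Sph n) → ℝ} (hg : Nice g)
    (hg' : Nice g') :
    slice β B S' η g - slice β B S' η g' = slice β B S' η fun σ => g σ - g' σ := by
  rw [slice, slice, slice, ← integral_sub (slice_integrable β B S' η hg) (slice_integrable β B S' η hg')]
  exact integral_congr_ae (Filter.Eventually.of_forall fun ζ => by ring)

omit [DecidableEq V] in
/-- Substituting a rotation of the interior. -/
lemma slice_rot (S' : Finset V) (η : V → Sph n) {g : (V → Sph n) → ℝ} (hg : Nice g)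
    (R R' : Vec n ≃ₗᵢ[ℝ] Vec n) (h : ∀ x, R' (R x) = x) :
    ∫ ζ, weight β B (rot S' R' (merge S' η ζ)) * g (merge S' η ζ) ∂freeMeasure n V
      = slice β B S' η fun σ => g (rot S' R σ) := by
  have hmm := measurable_slice (n := n) S' η
  have hmeas : AEStronglyMeasurable
      (fun ζ => weight β B (rot S' R' (merge S' η ζ)) * g (merge S' η ζ))
      ((freeMeasure n V).map (rot S' R)) :=
    (((measurable_weight β B).comp ((rot_measurePreserving S' R').measurable.comp hmm)).mul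
      (hg.1.comp hmm)).aestronglyMeasurable
  conv_lhs => rw [← (rot_measurePreserving (n := n) S' R).map_eq]
  rw [integral_map (rot_measurePreserving S' R).aemeasurable hmeas, slice]
  refine integral_congr_ae (Filter.Eventually.of_forall fun ζ => ?_)
  have hrot : merge S' η (rot S' R ζ) = rot S' R (merge S' η ζ) := by
    funext x
    by_cases hx : x ∈ S' <;> simp [merge, rot, hx]
  have hinv : rot S' R' (rot S' R (merge S' η ζ)) = merge S' η ζ := by
    funext x
    by_cases hx : x ∈ S'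
    · exact Subtype.ext (by simp [rot, sphMap, hx, h])
    · simp [rot, hx]
  simp only [hrot, hinv]

omit [DecidableEq V] in
lemma rot_weight_integrable (S' : Finset V) (η : V → Sph n) (R : Vec n ≃ₗᵢ[ℝ] Vec n)
    {g : (V → Sph n) → ℝ} (hg : Nice g) :
    Integrable (fun ζ => weight β B (rot S' R (merge S' η ζ)) * g (merge S' η ζ))
      (freeMeasure n V) := by
  haveI := freeMeasure_isProbability (n := n) (V := V)
  obtain ⟨C, hC⟩ := hg.2
  refine Integrable.of_bound (((measurable_weight β B).comp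
    ((rot_measurePreserving S' R).measurable.comp (measurable_slice S' η))).mul
      (hg.1.comp (measurable_slice S' η))).aestronglyMeasurable (exp (|β| * B.card) * C)
    (Filter.Eventually.of_forall fun ζ => ?_)
  rw [norm_mul, Real.norm_eq_abs, abs_of_pos (weight_pos β B _)]
  exact mul_le_mul (weight_le β B _) (hC _) (norm_nonneg _) (exp_pos _).le

omit [Fintype V] [DecidableEq V] [NeZero n] in
lemma nice_inner {α : Type*} [MeasurableSpace α] {f : α → Vec n} (hf : Nice f) (w : Vec n) :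
    Nice fun a => ⟪w, f a⟫ := by
  obtain ⟨C, hC⟩ := hf.2
  exact ⟨measurable_const.inner hf.1, ‖w‖ * C, fun a => (abs_real_inner_le_norm _ _).trans
    (mul_le_mul_of_nonneg_left (hC a) (norm_nonneg _))⟩

omit [Fintype V] [DecidableEq V] [NeZero n] in
lemma nice_sq {α : Type*} [MeasurableSpace α] {g : α → ℝ} (hg : Nice g) :
    Nice fun a => g a ^ 2 := by
  obtain ⟨C, hC⟩ := hg.2
  exact ⟨hg.1.pow_const 2, C ^ 2, fun a => by
    rw [norm_pow]; exact pow_le_pow_left₀ (norm_nonneg _) (hC a) 2⟩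

omit [Fintype V] [DecidableEq V] [NeZero n] in
lemma nice_norm_sq {α : Type*} [MeasurableSpace α] {f : α → Vec n} (hf : Nice f) :
    Nice fun a => ‖f a‖ ^ 2 := by
  obtain ⟨C, hC⟩ := hf.2
  exact ⟨hf.1.norm.pow_const 2, C ^ 2, fun a => by
    rw [norm_pow, norm_norm]; exact pow_le_pow_left₀ (norm_nonneg _) (hC a) 2⟩

omit [DecidableEq V] [NeZero n] in
lemma nice_one : Nice (fun _ : V → Sph n => (1 : ℝ)) := ⟨measurable_const, 1, fun _ => by simp⟩

omit [DecidableEq V] in
lemma slice_one (S' : Finset V) (η : V → Sph n) :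
    slice β B S' η (fun _ => 1) = part β B S' η := by
  simp [slice, part]

omit [NeZero n] in
lemma pair_pointwise {wp wm w bs q l β' s : ℝ} {F : ℝ} (hl : 0 < l) (A₁ A₂ A₀ : ℝ)
    (e1 : wm = exp A₁) (e2 : wp = exp A₂) (e0 : w = exp A₀)
    (hq : q = F) (hB : -(A₁ + A₂ - 2 * A₀) ≤ β' * s ^ 2 * bs) :
    q * (wm - wp) ≤ l * (wm * q ^ 2 + wp * q ^ 2)
      + ((wm + wp - 2 * w) / (2 * l) + β' * s ^ 2 / (2 * l) * (w * bs)) := by
  subst e1 e2 e0 hq
  have h := diff_le q A₁ A₂ l hl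
  have h' := sub_sq_exp A₁ A₂ A₀
  have h'' := mul_le_mul_of_nonneg_left hB (exp_pos A₀).le
  refine h.trans ?_
  have h3 : (exp (A₁ / 2) - exp (A₂ / 2)) ^ 2 / (2 * l)
      ≤ (exp A₁ + exp A₂ - 2 * exp A₀ + exp A₀ * (β' * s ^ 2 * bs)) / (2 * l) :=
    div_le_div_of_nonneg_right (by linarith) (by linarith)
  refine (add_le_add le_rfl h3).trans_eq ?_
  field_simp

include hu hv huv in
/-- The inequality coming from the two rotations in one plane. -/
lemma pair_ineq (hβ : 0 < β) (S' : Finset V) (η : V → Sph n)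
    {f : (V → Sph n) → Vec n} (hf : Nice f) (heq : ∀ R σ, f (rot S' R σ) = R (f σ))
    {s l : ℝ} (hl : 0 < l) :
    2 * sin s * slice β B S' η (fun σ => ⟪u, f σ⟫)
      ≤ l * (2 * slice β B S' η (fun σ => ⟪v, f σ⟫ ^ 2) + 2 * s ^ 2 * slice β B S' η (fun σ => ‖f σ‖ ^ 2))
        + β * s ^ 2 / (2 * l) * slice β B S' η (planeEnergy B S' u v) := by
  haveI := freeMeasure_isProbability (n := n) (V := V)
  set Rp := planeIso hu hv huv s with hRp
  set Rm := planeIso hu hv huv (-s) with hRm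
  have hmp : ∀ x, Rm (Rp x) = x := fun x => planeRot_neg hu hv huv s x
  have hpm : ∀ x, Rp (Rm x) = x := fun x => by
    simpa [hRp, hRm] using planeRot_neg hu hv huv (-s) x
  have hfp : ∀ σ, ⟪v, f (rot S' Rp σ)⟫ = sin s * ⟪u, f σ⟫ + cos s * ⟪v, f σ⟫ :=
    fun σ => by rw [heq]; exact inner_planeRot_snd hu hv huv s (f σ)
  have hfm : ∀ σ, ⟪v, f (rot S' Rm σ)⟫ = -(sin s) * ⟪u, f σ⟫ + cos s * ⟪v, f σ⟫ := fun σ => by
    rw [heq, ← sin_neg, ← cos_neg s]
    exact inner_planeRot_snd hu hv huv (-s) (f σ)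
  have nv := nice_inner hf v
  have nq := nice_sq nv
  have np : ∀ R : Vec n ≃ₗᵢ[ℝ] Vec n, Measurable (rot (V := V) S' R) := fun R =>
    (rot_measurePreserving S' R).measurable
  -- the linear term
  have hlin : ∫ ζ, ⟪v, f (merge S' η ζ)⟫ * (weight β B (rot S' Rm (merge S' η ζ))
      - weight β B (rot S' Rp (merge S' η ζ))) ∂freeMeasure n V
      = 2 * sin s * slice β B S' η (fun σ => ⟪u, f σ⟫) := by
    calc _ = (∫ ζ, weight β B (rot S' Rm (merge S' η ζ)) * ⟪v, f (merge S' η ζ)⟫ ∂freeMeasure n V)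
          - ∫ ζ, weight β B (rot S' Rp (merge S' η ζ)) * ⟪v, f (merge S' η ζ)⟫ ∂freeMeasure n V := by
          rw [← integral_sub (rot_weight_integrable β B S' η Rm nv)
            (rot_weight_integrable β B S' η Rp nv)]
          exact integral_congr_ae (Filter.Eventually.of_forall fun ζ => by ring)
      _ = slice β B S' η (fun σ => ⟪v, f (rot S' Rp σ)⟫)
          - slice β B S' η (fun σ => ⟪v, f (rot S' Rm σ)⟫) := by
          rw [slice_rot β B S' η nv Rp Rm hmp, slice_rot β B S' η nv Rm Rp hpm]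
      _ = _ := by
          rw [slice_sub (g := fun σ => ⟪v, f (rot S' Rp σ)⟫) (g' := fun σ => ⟪v, f (rot S' Rm σ)⟫)
            β B S' η (nv.comp (np Rp)) (nv.comp (np Rm)), slice, slice, ← integral_const_mul]
          refine integral_congr_ae (Filter.Eventually.of_forall fun ζ => ?_)
          simp only [hfp, hfm]
          ring
  -- the quadratic term
  have hquad : (∫ ζ, weight β B (rot S' Rm (merge S' η ζ)) * ⟪v, f (merge S' η ζ)⟫ ^ 2 ∂freeMeasure n V)
      + (∫ ζ, weight β B (rot S' Rp (merge S' η ζ)) * ⟪v, f (merge S' η ζ)⟫ ^ 2 ∂freeMeasure n V)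
      ≤ 2 * slice β B S' η (fun σ => ⟪v, f σ⟫ ^ 2)
        + 2 * s ^ 2 * slice β B S' η (fun σ => ‖f σ‖ ^ 2) := by
    rw [slice_rot β B S' η nq Rp Rm hmp, slice_rot β B S' η nq Rm Rp hpm]
    have e1 : Integrable (fun ζ => weight β B (merge S' η ζ) *
        ⟪v, f (rot S' Rp (merge S' η ζ))⟫ ^ 2) (freeMeasure n V) :=
      slice_integrable β B S' η (nq.comp (np Rp))
    have e2 : Integrable (fun ζ => weight β B (merge S' η ζ) *
        ⟪v, f (rot S' Rm (merge S' η ζ))⟫ ^ 2) (freeMeasure n V) :=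
      slice_integrable β B S' η (nq.comp (np Rm))
    have e3 := (slice_integrable β B S' η nq).const_mul 2
    have e4 := (slice_integrable β B S' η (nice_norm_sq hf)).const_mul (2 * s ^ 2)
    simp only [slice]
    rw [← integral_add e1 e2, ← integral_const_mul, ← integral_const_mul, ← integral_add e3 e4]
    refine integral_mono (e1.add e2) (e3.add e4) fun ζ => ?_
    simp only [Pi.add_apply, hfp, hfm]
    set σ := merge S' η ζ
    have h1 : sin s ^ 2 ≤ s ^ 2 := by
      simpa [sq_abs] using pow_le_pow_left₀ (abs_nonneg (sin s)) (abs_sin_le_abs (x := s)) 2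
    have h2 : ⟪u, f σ⟫ ^ 2 ≤ ‖f σ‖ ^ 2 := by
      have hu' : ‖u‖ = 1 := by
        have := hu
        rw [real_inner_self_eq_norm_sq] at this
        exact (pow_eq_one_iff_of_nonneg (norm_nonneg u) two_ne_zero).1 this
      simpa [hu', sq_abs] using
        pow_le_pow_left₀ (abs_nonneg _) (abs_real_inner_le_norm u (f σ)) 2
    have h3 : cos s ^ 2 * ⟪v, f σ⟫ ^ 2 ≤ ⟪v, f σ⟫ ^ 2 :=
      mul_le_of_le_one_left (sq_nonneg _) (cos_sq_le_one s)
    have h4 : sin s ^ 2 * ⟪u, f σ⟫ ^ 2 ≤ s ^ 2 * ‖f σ‖ ^ 2 :=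
      mul_le_mul h1 h2 (sq_nonneg _) (sq_nonneg _)
    have h5 := mul_le_mul_of_nonneg_left (add_le_add h3 h4) (weight_pos β B σ).le
    linarith
  -- the affinity
  have iB := slice_integrable β B S' η (nice_planeEnergy B S' u v hu hv)
  have iW := slice_integrable β B S' η (nice_one (V := V))
  have iWm := rot_weight_integrable β B S' η Rm (nice_one (V := V))
  have iWp := rot_weight_integrable β B S' η Rp (nice_one (V := V))
  simp only [mul_one] at iW iWm iWp
  have hZm : ∫ ζ, weight β B (rot S' Rm (merge S' η ζ)) ∂freeMeasure n V = part β B S' η := by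
    have := slice_rot β B S' η (nice_one (V := V)) Rp Rm hmp
    simpa [slice, part] using this
  have hZp : ∫ ζ, weight β B (rot S' Rp (merge S' η ζ)) ∂freeMeasure n V = part β B S' η := by
    have := slice_rot β B S' η (nice_one (V := V)) Rm Rp hpm
    simpa [slice, part] using this
  have hZw : ∫ ζ, weight β B (merge S' η ζ) ∂freeMeasure n V = part β B S' η := rfl
  have jm := rot_weight_integrable β B S' η Rm nq
  have jp := rot_weight_integrable β B S' η Rp nq
  have iS : Integrable (fun ζ => (weight β B (rot S' Rm (merge S' η ζ))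
      + weight β B (rot S' Rp (merge S' η ζ)) - 2 * weight β B (merge S' η ζ)) / (2 * l))
      (freeMeasure n V) := ((iWm.add iWp).sub (iW.const_mul 2)).div_const _
  have iI : Integrable (fun ζ => ⟪v, f (merge S' η ζ)⟫ * (weight β B (rot S' Rm (merge S' η ζ))
      - weight β B (rot S' Rp (merge S' η ζ)))) (freeMeasure n V) :=
    ((rot_weight_integrable β B S' η Rm nv).sub (rot_weight_integrable β B S' η Rp nv)).congr
      (Filter.Eventually.of_forall fun ζ => by simp only [Pi.sub_apply]; ring)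
  have iA : Integrable (fun ζ => l * (weight β B (rot S' Rm (merge S' η ζ)) * ⟪v, f (merge S' η ζ)⟫ ^ 2
      + weight β B (rot S' Rp (merge S' η ζ)) * ⟪v, f (merge S' η ζ)⟫ ^ 2)) (freeMeasure n V) :=
    (jm.add jp).const_mul l
  have iC : Integrable (fun ζ => β * s ^ 2 / (2 * l) *
      (weight β B (merge S' η ζ) * planeEnergy B S' u v (merge S' η ζ))) (freeMeasure n V) :=
    iB.const_mul _
  have h := integral_mono iI (iA.add (iS.add iC)) fun ζ =>
    pair_pointwise (β' := β) (s := s) hl (β * energy B (rot S' Rm (merge S' η ζ)))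
      (β * energy B (rot S' Rp (merge S' η ζ))) (β * energy B (merge S' η ζ))
      (weight_eq β B _) (weight_eq β B _) (weight_eq β B _) rfl (by
        have := mul_le_mul_of_nonneg_left
          (energy_second_diff hu hv huv B S' s (merge S' η ζ)) hβ.le
        linarith)
  rw [hlin] at h
  refine h.trans (le_of_eq_of_le ?_ (add_le_add (mul_le_mul_of_nonneg_left hquad hl.le) le_rfl))
  rw [integral_add' iA (iS.add iC), integral_add' iS iC, integral_const_mul, integral_add jm jp,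
    integral_const_mul, slice]
  have hS0 : ∫ ζ, (weight β B (rot S' Rm (merge S' η ζ))
      + weight β B (rot S' Rp (merge S' η ζ)) - 2 * weight β B (merge S' η ζ)) / (2 * l)
      ∂freeMeasure n V = 0 := by
    rw [integral_div, integral_sub (f := fun ζ => weight β B (rot S' Rm (merge S' η ζ))
        + weight β B (rot S' Rp (merge S' η ζ))) (iWm.add iWp) (iW.const_mul 2),
      integral_add iWm iWp, integral_const_mul, hZm, hZp, hZw]
    simp [two_mul]
  rw [hS0, zero_add]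

/-- The final algebra. -/
lemma shell_algebra {N bG M Z Q F : ℝ} (hN : 1 ≤ N) (hbG : 0 < bG) (hM : 0 < M) (hZ : 0 < Z)
    (hQ : 0 ≤ Q) (hF : F ≤ Q - M ^ 2 * Z)
    (main : ∀ s : ℝ, 0 < s → s ≤ 1 → 2 * N * (1 - s ^ 2 / 6) * (M * Z)
      ≤ 2 * (bG / (2 * M)) * F + 2 * (bG / (2 * M)) * s ^ 2 * N * Q
        + bG * N * Z / (2 * (bG / (2 * M)))) :
    (N + bG) * M ^ 2 ≤ bG * (Z⁻¹ * Q) := by
  set mu := bG / (2 * M) with hmu
  have hmu0 : 0 < mu := div_pos hbG (by linarith)
  have h3 : bG * N * Z / (2 * mu) = N * (M * Z) := by rw [hmu]; field_simp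
  have h4 : 2 * mu * M = bG := by rw [hmu]; field_simp
  rw [h3] at main
  have hlim : N * (M * Z) ≤ 2 * mu * F := by
    refine le_of_forall_pos_le_add fun ε hε => ?_
    set Kc := N * (M * Z) / 3 + 2 * mu * N * Q with hKc
    have hKc0 : 0 ≤ Kc := by positivity
    set s := min 1 (ε / (Kc + 1)) with hsdef
    have hs : 0 < s := lt_min one_pos (by positivity)
    have hs1 : s ≤ 1 := min_le_left _ _
    have hsK : s ^ 2 * Kc ≤ ε := by
      have h1 : s ^ 2 ≤ ε / (Kc + 1) :=
        (pow_le_of_le_one hs.le hs1 two_ne_zero).trans (min_le_right _ _)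
      rw [le_div_iff₀ (by linarith)] at h1
      linarith [sq_nonneg s]
    have := main s hs hs1
    rw [hKc] at hsK
    linarith
  have h5 := hlim.trans (mul_le_mul_of_nonneg_left hF (by linarith))
  have h6 := mul_le_mul_of_nonneg_left h5 hM.le
  have h7 : N * (M ^ 2 * Z) ≤ bG * (Q - M ^ 2 * Z) := by rw [← h4]; linarith
  rw [← mul_assoc, mul_comm bG Z⁻¹, mul_assoc, ← div_eq_inv_mul, le_div_iff₀ hZ]
  linarith

/-- The shell inequality. -/
theorem shell_ineq (hn : 2 ≤ n) (hβ : 0 < β) {S' : Finset V} {G : ℝ} (hG0 : 0 < G)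
    (hG : ((crossing B S').card : ℝ) ≤ G)
    {f : (V → Sph n) → Vec n} (hf : Nice f)
    (heq : ∀ R σ, f (rot S' R σ) = R (f σ)) (η : V → Sph n) :
    ((n : ℝ) - 1 + β * G) * ‖cond β B S' f η‖ ^ 2
      ≤ β * G * cond β B S' (fun σ => ‖f σ‖ ^ 2) η := by
  classical
  haveI := freeMeasure_isProbability (n := n) (V := V)
  have hn1 : (1 : ℝ) ≤ (n : ℝ) - 1 := by
    have : (2 : ℝ) ≤ n := by exact_mod_cast hn
    linarith
  set Z := part β B S' η with hZ
  have hZ0 : 0 < Z := part_pos β B S' η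
  set Q := slice β B S' η (fun σ => ‖f σ‖ ^ 2) with hQ
  have hQeq : cond β B S' (fun σ => ‖f σ‖ ^ 2) η = Z⁻¹ * Q := rfl
  have hQ0 : 0 ≤ Q := integral_nonneg fun ζ => mul_nonneg (weight_pos β B _).le (sq_nonneg _)
  rw [hQeq]
  set m := cond β B S' f η with hm
  by_cases hm0 : m = 0
  · rw [hm0, norm_zero]
    simp only [ne_eq, OfNat.ofNat_ne_zero, not_false_eq_true, zero_pow, mul_zero]
    positivity
  -- an orthonormal frame starting along the conditional mean
  let e0 : Fin n := ⟨0, by omega⟩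
  have hM : 0 < ‖m‖ := norm_pos_iff.2 hm0
  obtain ⟨b, hb⟩ := Orthonormal.exists_orthonormalBasis_extension_of_card_eq (𝕜 := ℝ) (E := Vec n)
    (ι := Fin n) (card_ι := by simp) (v := fun _ => ‖m‖⁻¹ • m) (s := {e0}) (by
      refine ⟨fun _ => by simp [Set.domRestrict, norm_smul, hM.ne'], ?_⟩
      intro i j hij
      exact absurd (Subsingleton.elim i j) hij)
  have hbe : b e0 = ‖m‖⁻¹ • m := hb e0 rfl
  have hbn : ∀ i, ⟪b i, b i⟫ = 1 := fun i => by
    rw [real_inner_self_eq_norm_sq, b.orthonormal.1 i, one_pow]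
  have hpars : ∀ x : Vec n, ∑ i, ⟪b i, x⟫ ^ 2 = ‖x‖ ^ 2 := fun x => by
    rw [← real_inner_self_eq_norm_sq, ← b.sum_inner_mul_inner x x]
    exact sum_congr rfl fun i _ => by rw [real_inner_comm x (b i)]; ring
  set J := (univ : Finset (Fin n)).erase e0 with hJ
  have hJc : (J.card : ℝ) = (n : ℝ) - 1 := by
    rw [hJ, card_erase_of_mem (mem_univ _), card_univ, Fintype.card_fin,
      Nat.cast_sub (by omega), Nat.cast_one]
  have hJsum : ∀ x : Vec n, ⟪b e0, x⟫ ^ 2 + ∑ j ∈ J, ⟪b j, x⟫ ^ 2 = ‖x‖ ^ 2 := fun x => by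
    rw [hJ, add_sum_erase univ (fun j => ⟪b j, x⟫ ^ 2) (mem_univ e0)]; exact hpars x
  set F2 : Fin n → ℝ := fun i => slice β B S' η (fun σ => ⟪b i, f σ⟫ ^ 2) with hF2
  have hFe : slice β B S' η (fun σ => ⟪b e0, f σ⟫) = ‖m‖ * Z := by
    have h1 : Z • m = ∫ ζ, weight β B (merge S' η ζ) • f (merge S' η ζ) ∂freeMeasure n V :=
      cond_smul β B S' f η
    have hi : Integrable (fun ζ => weight β B (merge S' η ζ) • f (merge S' η ζ)) (freeMeasure n V) :=
      ((hf.wsmul β B).comp (measurable_slice S' η)).integrable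
    have h2 : slice β B S' η (fun σ => ⟪b e0, f σ⟫) = ⟪b e0, Z • m⟫ := by
      rw [h1, ← integral_inner hi]
      exact integral_congr_ae (Filter.Eventually.of_forall fun ζ => by simp [real_inner_smul_right])
    rw [h2, hbe, real_inner_smul_left, real_inner_smul_right, real_inner_self_eq_norm_sq]
    field_simp
  have hF2sum : F2 e0 + ∑ j ∈ J, F2 j = Q := by
    have i1 := fun i => slice_integrable β B S' η (nice_sq (nice_inner hf (b i)))
    simp only [hF2, hQ, slice]
    rw [← integral_finsetSum _ (fun j _ => i1 j),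
      ← integral_add (i1 e0) (integrable_finsetSum _ fun j _ => i1 j)]
    refine integral_congr_ae (Filter.Eventually.of_forall fun ζ => ?_)
    simp only [← mul_sum, ← mul_add, hJsum]
  have hjen : ‖m‖ ^ 2 * Z ≤ F2 e0 := by
    have i1 := (slice_integrable β B S' η (nice_inner hf (b e0))).const_mul (2 * ‖m‖)
    have i2 := (slice_integrable β B S' η (nice_one (V := V))).const_mul (‖m‖ ^ 2)
    have i3 := slice_integrable β B S' η (nice_sq (nice_inner hf (b e0)))
    have h1 : 2 * ‖m‖ * slice β B S' η (fun σ => ⟪b e0, f σ⟫)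
        - ‖m‖ ^ 2 * slice β B S' η (fun _ => 1) ≤ F2 e0 := by
      simp only [hF2, slice]
      rw [← integral_const_mul, ← integral_const_mul, ← integral_sub i1 i2]
      refine integral_mono (i1.sub i2) i3 fun ζ => ?_
      simp only [Pi.sub_apply]
      linarith [mul_nonneg (weight_pos β B (merge S' η ζ)).le
        (sq_nonneg (⟪b e0, f (merge S' η ζ)⟫ - ‖m‖))]
    rw [hFe, slice_one] at h1
    linarith
  have hbond : ∑ j ∈ J, slice β B S' η (planeEnergy B S' (b e0) (b j))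
      ≤ G * ((n : ℝ) - 1) * Z := by
    have hi := fun j => slice_integrable β B S' η (nice_planeEnergy B S' (b e0) (b j) (hbn _) (hbn j))
    simp only [slice]
    rw [← integral_finsetSum _ fun j _ => hi j]
    have hZi : ∫ ζ, (G * ((n : ℝ) - 1)) * weight β B (merge S' η ζ) ∂freeMeasure n V
        = G * ((n : ℝ) - 1) * Z := by rw [integral_const_mul]; rfl
    rw [← hZi]
    have i1 := slice_integrable β B S' η (nice_one (V := V))
    simp only [mul_one] at i1
    refine integral_mono (integrable_finsetSum _ fun j _ => hi j) (i1.const_mul _) fun ζ => ?_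
    rw [← mul_sum, mul_comm (G * ((n : ℝ) - 1))]
    refine mul_le_mul_of_nonneg_left ?_ (weight_pos β B _).le
    simp only [planeEnergy]
    rw [sum_comm]
    refine ((sum_le_card_nsmul _ _ ((n : ℝ) - 1) fun c _ => ?_).trans_eq (nsmul_eq_mul _ _)).trans
      (mul_le_mul_of_nonneg_right hG (by linarith))
    simp only [← sum_div, sum_add_distrib, sum_const, nsmul_eq_mul, hJc]
    have hx := hJsum (merge S' η ζ c.1 : Vec n)
    have hy := hJsum (merge S' η ζ c.2 : Vec n)
    rw [norm_spin, one_pow] at hx hy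
    have sx := mul_le_mul_of_nonneg_right hn1
      (sum_nonneg (s := J) fun j _ => sq_nonneg ⟪b j, (merge S' η ζ c.1 : Vec n)⟫)
    have sy := mul_le_mul_of_nonneg_right hn1
      (sum_nonneg (s := J) fun j _ => sq_nonneg ⟪b j, (merge S' η ζ c.2 : Vec n)⟫)
    linear_combination (1 / 2 : ℝ) * sx + (1 / 2 : ℝ) * sy + (((n : ℝ) - 1) / 2) * hx
      + (((n : ℝ) - 1) / 2) * hy
  refine shell_algebra (F := ∑ j ∈ J, F2 j) hn1 (mul_pos hβ hG0) hM hZ0 hQ0
    (by linarith) fun s hs hs1 => ?_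
  set mu := β * G / (2 * ‖m‖) with hmu
  have hl : 0 < mu * s := mul_pos (div_pos (mul_pos hβ hG0) (by linarith)) hs
  have key := sum_le_sum (s := J) fun j hj =>
    pair_ineq (u := b e0) (v := b j) (hbn e0) (hbn j)
      (b.orthonormal.2 (mem_erase.1 hj).1.symm) β B hβ S' η hf heq (s := s) hl
  simp only [hFe] at key
  rw [sum_const, nsmul_eq_mul, hJc, sum_add_distrib, ← mul_sum, ← mul_sum, sum_add_distrib,
    ← mul_sum, sum_const, nsmul_eq_mul, hJc] at key
  have hsin : s * (1 - s ^ 2 / 6) ≤ sin s := by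
    linarith [sin_gt_sub_cube hs]
  have hA := mul_le_mul_of_nonneg_right
    (mul_le_mul_of_nonneg_left hsin (show (0 : ℝ) ≤ 2 * ((n : ℝ) - 1) by linarith))
    (mul_nonneg hM.le hZ0.le)
  have hB' := mul_le_mul_of_nonneg_left hbond
    (show 0 ≤ β * s ^ 2 / (2 * (mu * s)) by positivity)
  have e : β * s ^ 2 / (2 * (mu * s)) * (G * ((n : ℝ) - 1) * Z)
      = s * (β * G * ((n : ℝ) - 1) * Z / (2 * mu)) := by field_simp
  refine le_of_mul_le_mul_left ?_ hs
  linarith

end Vale.Agent.P163
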